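import Vale.Agent.P106.U.H118.Rise
import Vale.Agent.P127.U.Cell
import Vale.Agent.P127.U.H833.Avg

/-!
# P106 / U / H833 : approximately nested cells (helper833)

The cells of P106 carry no history of positions: `E i` is a function of `E j` (`i ≤ j`) only up to a small
conditional entropy `ν`.  Everything abstract, one finite law `P`, no geometry.

* `mi_near` : `I(U ; C' | C) ≤ H(U|C) - H(U|C') + H(C|C')`.
* `chain_near` : the informations of consecutive pieces add up, up to the errors `H(E_v | E_(v+1))`.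
* `step_le` : one piece: `H(E_k | E_i, T_k) ≤ I(l ; E_k | E_i)` (no nestedness of the cells).
* `tele_near` : `∑_j I(U ; C (j+M) | C j) ≤ M H + ∑ ν`.
* `total_le` : totals (661, 17465 (1)): the path is NOT a function of the cells;
  `∑ (H(E_(v+1)|E_v) - H(E_v|E_(v+1)) - H(T_(v+1)|l,T_v)) - H(T_0|l,E_0) ≤ I(l ; E_V | E_0)`.
* `gain_a` : at an a-step the cost of the time block cancels.
* `rise_tot` : the RISE lemma of helper118 (`U/H118/Rise.lean`) for approximately nested cells, in the form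
  of a lower bound for `H(E_(i') | E_i)`; `rise_near` : the same as a bound for the information.
-/

set_option autoImplicit false

namespace Vale.Agent.P106.U.H833

open Finset Vale.Agent.P127 Vale.Agent.P127.Stk Vale.Agent.P127.U.Cell
open Vale.Agent.P106.U.H118 (two two_supp two_hc two_hc')

section

variable {Ω : Type} [Fintype Ω] (P : Law Ω) {S S' S'' T T' T'' U V W : Type*}

/-- `H(U|C') ≤ H(U|C,C') + H(C|C')` -/
theorem hc_le_near (X : Ω → U) (C : Ω → S) (C' : Ω → S') :
    hc P X C' ≤ hc P X (fun ω => (C' ω, C ω)) + hc P C C' := by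
  have h := hc_le_add' P X C C'
  have h2 : hc P X (fun ω => (C ω, C' ω)) = hc P X (fun ω => (C' ω, C ω)) :=
    hc_congr P (fun _ _ _ _ e => congrArg Prod.fst e) (fun _ _ _ _ e => congrArg Prod.fst e)
      (fun ω ω' _ _ e => by
        simp only [Prod.mk.injEq] at e ⊢
        exact ⟨e.2, e.1⟩)
      (fun ω ω' _ _ e => by
        simp only [Prod.mk.injEq] at e ⊢
        exact ⟨e.2, e.1⟩)
  linarith

/-- information of a new cell, approximately nested -/
theorem mi_near (X : Ω → U) (C : Ω → S) (C' : Ω → S') :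
    mi P X C' C ≤ hc P X C - hc P X C' + hc P C C' := by
  have h := hc_le_near P X C C'
  unfold mi
  linarith

/-- the converse -/
theorem le_mi_near (X : Ω → U) (C : Ω → S) (C' : Ω → S') :
    hc P X C - hc P X C' ≤ mi P X C' C := by
  have h : hc P X (fun ω => (C' ω, C ω)) ≤ hc P X C' :=
    hc_mono_right P X fun _ _ _ _ e => congrArg Prod.fst e
  unfold mi
  linarith

/-- information of a cell which is nearly a function of another one -/
theorem mi_near_mono (X : Ω → U) (D : Ω → T) (C' : Ω → S') (C'' : Ω → S'') :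
    mi P X C' D ≤ mi P X C'' D + hc P C' C'' := by
  have h1 : mi P X C' D ≤ mi P X (fun ω => (C'' ω, C' ω)) D :=
    mi_mono_right P X fun ω ω' _ _ e => by
      simp only [Prod.mk.injEq] at e
      exact e.1.2
  have h2 := mi_pair P X C'' C' D
  have h3 : mi P X C' (fun ω => (C'' ω, D ω)) ≤ hc P C' (fun ω => (C'' ω, D ω)) := mi_le_hc' P _ _ _
  have h4 : hc P C' (fun ω => (C'' ω, D ω)) ≤ hc P C' C'' :=
    hc_mono_right P C' fun _ _ _ _ e => congrArg Prod.fst e
  linarith

/-- **chain** over pieces -/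
theorem chain_near (X : Ω → U) (E : ℕ → Ω → S) (c : ℕ → ℝ) (V : ℕ)
    (hc0 : ∀ v < V, hc P (E v) (E (v + 1)) ≤ c v) :
    ∑ v ∈ range V, mi P X (E (v + 1)) (E v) ≤ mi P X (E V) (E 0) + ∑ v ∈ range V, c v := by
  have h1 : ∀ v ∈ range V, mi P X (E (v + 1)) (E v) ≤
      (hc P X (E v) - hc P X (E (v + 1))) + c v := by
    intro v hv
    have h2 := mi_near P X (E v) (E (v + 1))
    have h3 := hc0 v (Finset.mem_range.1 hv)
    linarith
  refine (Finset.sum_le_sum h1).trans ?_
  rw [Finset.sum_add_distrib, Finset.sum_range_sub' (fun v => hc P X (E v)) V]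
  have h4 := le_mi_near P X (E 0) (E V)
  linarith

/-- one piece: the path digits cancel -/
theorem step_le (l : Ω → U) {T' : Ω → S} {E : Ω → V} {E' : Ω → W}
    (hT' : Fn P T' E') (hE : Fn P E' (fun ω => (l ω, T' ω))) :
    hc P E' (fun ω => (T' ω, E ω)) ≤ mi P l E' E := by
  rw [mi_symm]
  unfold mi
  have h1 : hc P E' (fun ω => (l ω, E ω)) ≤ hc P T' (fun ω => (l ω, E ω)) := by
    refine hc_mono_left P ?_
    intro ω ω' p p' e
    simp only [Prod.mk.injEq] at e
    exact hE ω ω' p p' (Prod.ext e.2.1 e.1)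
  have h2 : hc P T' (fun ω => (l ω, E ω)) ≤ hc P T' E :=
    hc_mono_right P _ fun ω ω' _ _ e => congrArg Prod.snd e
  have h3 : hc P E' E = hc P T' E + hc P E' (fun ω => (T' ω, E ω)) := by
    rw [← hc_pair P T' E' E]
    refine hc_congr P ?_ ?_ (fun ω ω' _ _ e => e) (fun ω ω' _ _ e => e)
    · intro ω ω' _ _ e
      simp only [Prod.mk.injEq] at e
      exact e.1.2
    · intro ω ω' p p' e
      simp only [Prod.mk.injEq] at e
      exact Prod.ext (hT' ω ω' p p' e.1) e.1
  linarith

/-- the cell costs no more than the path, given the line -/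
theorem cost_le (l : Ω → U) {T T' : Ω → S} {E : Ω → V} {E' : Ω → W}
    (hT : Fn P T E) (hE : Fn P E' (fun ω => (l ω, T' ω))) :
    hc P E' (fun ω => (l ω, E ω)) ≤ hc P T' (fun ω => (l ω, T ω)) := by
  have h1 : hc P E' (fun ω => (l ω, E ω)) ≤ hc P T' (fun ω => (l ω, E ω)) := by
    refine hc_mono_left P ?_
    intro ω ω' p p' e
    simp only [Prod.mk.injEq] at e
    exact hE ω ω' p p' (Prod.ext e.2.1 e.1)
  refine h1.trans (hc_mono_right P _ ?_)
  intro ω ω' p p' e
  simp only [Prod.mk.injEq] at e ⊢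
  exact ⟨e.1, hT ω ω' p p' e.2⟩

/-- **telescoping** for an approximately nested sequence -/
theorem tele_near (X : Ω → U) (C : ℕ → Ω → S) (ν : ℕ → ℝ) (n M : ℕ) {H : ℝ}
    (hν : ∀ j < n, hc P (C j) (C (j + M)) ≤ ν j) (hH : ∀ j < M, hc P X (C j) ≤ H) :
    ∑ j ∈ range n, mi P X (C (j + M)) (C j) ≤ M * H + ∑ j ∈ range n, ν j := by
  have h1 : ∀ j ∈ range n, mi P X (C (j + M)) (C j) ≤
      (hc P X (C j) - hc P X (C (j + M))) + ν j := by
    intro j hj
    have h2 := mi_near P X (C j) (C (j + M))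
    have h3 := hν j (Finset.mem_range.1 hj)
    linarith
  refine (Finset.sum_le_sum h1).trans ?_
  rw [Finset.sum_add_distrib, sum_tele (fun i => hc P X (C i))]
  have h2 : ∀ j ∈ range M, hc P X (C j) - hc P X (C (n + j)) ≤ H := by
    intro j hj
    have h3 := hc_nonneg P X (C (n + j))
    have h4 := hH j (Finset.mem_range.1 hj)
    linarith
  have h5 := Finset.sum_le_sum h2
  rw [Finset.sum_const, card_range, nsmul_eq_mul] at h5
  linarith

/-- telescoping, variable target `i' j`, `j ≤ i' j ≤ j + M` -/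
theorem tele_near' (X : Ω → U) (C : ℕ → Ω → S) (ν ν' : ℕ → ℝ) (n M : ℕ) {H : ℝ} (s : Finset ℕ)
    (hs : s ⊆ range n) (i' : ℕ → ℕ)
    (hν : ∀ j < n, hc P (C j) (C (j + M)) ≤ ν j) (hν' : ∀ j ∈ s, hc P (C (i' j)) (C (j + M)) ≤ ν' j)
    (hH : ∀ j < M, hc P X (C j) ≤ H) :
    ∑ j ∈ s, mi P X (C (i' j)) (C j) ≤ M * H + ∑ j ∈ range n, ν j + ∑ j ∈ s, ν' j := by
  have h1 : ∀ j ∈ s, mi P X (C (i' j)) (C j) ≤ mi P X (C (j + M)) (C j) + ν' j := by
    intro j hj
    have h2 := mi_near_mono P X (C j) (C (i' j)) (C (j + M))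
    have h3 := hν' j hj
    linarith
  refine (Finset.sum_le_sum h1).trans ?_
  rw [Finset.sum_add_distrib]
  have h2 : ∑ j ∈ s, mi P X (C (j + M)) (C j) ≤ ∑ j ∈ range n, mi P X (C (j + M)) (C j) :=
    Finset.sum_le_sum_of_subset_of_nonneg hs fun j _ _ => mi_nonneg P _ _ _
  have h3 := tele_near P X C ν n M hν hH
  linarith

/-- **totals** -/
theorem total_le {Λ τ : Type*} (l : Ω → Λ) (T : ℕ → Ω → τ) (E : ℕ → Ω → S) (V : ℕ)
    (hTT : ∀ v, Fn P (T v) (T (v + 1))) (hE : ∀ v, Fn P (E v) (fun ω => (l ω, T v ω))) :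
    ∑ v ∈ range V, (hc P (E (v + 1)) (E v) - hc P (E v) (E (v + 1)) -
        hc P (T (v + 1)) (fun ω => (l ω, T v ω))) - hc P (T 0) (fun ω => (l ω, E 0 ω)) ≤
      mi P l (E V) (E 0) := by
  have a1 : mi P l (E V) (E 0) = hc P (E V) (E 0) - hc P (E V) (fun ω => (l ω, E 0 ω)) := by
    rw [mi_symm]; rfl
  -- the entropy of the last cell
  have a2 : ∀ V, ∑ v ∈ range V, (hc P (E (v + 1)) (E v) - hc P (E v) (E (v + 1))) =
      P.H (E V) - P.H (E 0) := by
    intro V
    induction V with
    | zero => simp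
    | succ V ih =>
      rw [Finset.sum_range_succ, ih]
      have h1 : P.H (fun ω => (E (V + 1) ω, E V ω)) = P.H (fun ω => (E V ω, E (V + 1) ω)) := by
        refine P.H_congr fun ω ω' => ?_
        simp only [Prod.mk.injEq]
        tauto
      unfold hc
      rw [h1]
      ring
  have a3 : P.H (E V) - P.H (E 0) ≤ hc P (E V) (E 0) := by
    have h1 : P.H (E V) ≤ P.H (fun ω => (E V ω, E 0 ω)) :=
      H_mono' P fun ω ω' _ _ e => congrArg Prod.fst e
    unfold hc
    linarith
  -- the cost of the path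
  have a4 : ∀ V, hc P (T V) (fun ω => (l ω, E 0 ω)) ≤
      ∑ v ∈ range V, hc P (T (v + 1)) (fun ω => (l ω, T v ω)) + hc P (T 0) (fun ω => (l ω, E 0 ω)) := by
    intro V
    induction V with
    | zero => simp
    | succ V ih =>
      rw [Finset.sum_range_succ]
      have h1 := hc_le_add P (T (V + 1)) (T V) (fun ω => (l ω, E 0 ω))
      have h2 : hc P (T (V + 1)) (fun ω => (T V ω, (l ω, E 0 ω))) ≤
          hc P (T (V + 1)) (fun ω => (l ω, T V ω)) :=
        hc_mono_right P _ fun ω ω' _ _ e => by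
          simp only [Prod.mk.injEq] at e ⊢
          exact ⟨e.2.1, e.1⟩
      linarith
  have a5 : hc P (E V) (fun ω => (l ω, E 0 ω)) ≤ hc P (T V) (fun ω => (l ω, E 0 ω)) := by
    refine hc_mono_left P ?_
    intro ω ω' p p' e
    simp only [Prod.mk.injEq] at e
    exact hE V ω ω' p p' (Prod.ext e.2.1 e.1)
  have a6 := a2 V
  have a7 := a4 V
  rw [Finset.sum_sub_distrib]
  linarith

/-- a-step: the cost of the time block cancels -/
theorem gain_a {Λ τ τ' : Type*} (l : Ω → Λ) {T : Ω → τ} {T' : Ω → τ'} (tb : Ω → T'') {E : Ω → V} {E' : Ω → W}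
    (hE : Fn P E (fun ω => (l ω, T ω))) (ht : Fn P T' (fun ω => (T ω, tb ω))) (htE : Fn P tb E') :
    hc P E' (fun ω => (tb ω, E ω)) ≤ hc P E' E - hc P T' (fun ω => (l ω, T ω)) := by
  have h1 : hc P E' E = hc P tb E + hc P E' (fun ω => (tb ω, E ω)) := by
    rw [← hc_pair P tb E' E]
    refine hc_congr P ?_ ?_ (fun ω ω' _ _ e => e) (fun ω ω' _ _ e => e)
    · intro ω ω' _ _ e
      simp only [Prod.mk.injEq] at e
      exact e.1.2
    · intro ω ω' p p' e
      simp only [Prod.mk.injEq] at e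
      exact Prod.ext (htE ω ω' p p' e.1) e.1
  have h2 : hc P tb (fun ω => (l ω, T ω)) ≤ hc P tb E := hc_mono_right P tb hE
  have h3 : hc P T' (fun ω => (l ω, T ω)) ≤ hc P tb (fun ω => (l ω, T ω)) := by
    refine hc_mono_left P ?_
    intro ω ω' p p' e
    simp only [Prod.mk.injEq] at e
    exact ht ω ω' p p' (Prod.ext e.2.2 e.1)
  linarith

/-- **RISE**, approximately nested cells, entropy form.  `G` = two copies given `K`, `E` a function of `K`;
`S w` the cells of the first copy, `X w`, `T' w` functions of `S (w+1)`. -/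
theorem rise_tot {κ σ χ τ : Type*} (K : Ω → κ) (E : Ω → V) (E' : Ω → W) (S : ℕ → Ω → σ)
    (X : ℕ → Ω → χ) (T' : ℕ → Ω → τ) (N : ℕ) {c0 : ℝ} {ν e : ℕ → ℝ}
    (hK : Fn P E K)
    (h0 : hc P E (S 0) ≤ c0)
    (h1 : ∀ w < N, hc P (S w) (S (w + 1)) ≤ ν w)
    (h2 : ∀ w < N, Fn P (fun ω => (T' w ω, X w ω)) (S (w + 1)))
    (he : ∀ w < N, hc (two P K) (fun p => X w p.fst)
      (fun p => (E' p.snd, (T' w p.fst, S w p.fst))) ≤ e w) :
    ∑ w ∈ range N, (hc P (X w) (fun ω => (T' w ω, S w ω)) - e w - ν w) - c0 ≤ hc P E' E := by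
  set G := two P K with hG
  have a2 : hc P E' E = hc G (fun p => E' p.snd) (fun p => E p.snd) := (two_hc' P K _ _).symm
  have b : ∀ p : Law.GT K K, 0 < G.w p → E p.fst = E p.snd := fun p hp =>
    hK _ _ (two_supp hp).1 (two_supp hp).2 p.eq
  have a3 : hc G (fun p => E' p.snd) (fun p => E p.fst) =
      hc G (fun p => E' p.snd) (fun p => E p.snd) :=
    hc_congr G (fun _ _ _ _ e => congrArg Prod.fst e) (fun _ _ _ _ e => congrArg Prod.fst e)
      (fun p q hp hq e => by
        have e' : E p.snd = E q.snd := e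
        change E p.fst = E q.fst
        rw [b p hp, b q hq, e'])
      (fun p q hp hq e => by
        have e' : E p.fst = E q.fst := e
        change E p.snd = E q.snd
        rw [← b p hp, ← b q hq, e'])
  -- from `E` to `S 0`
  have a4 : hc G (fun p => E' p.snd) (fun p => S 0 p.fst) ≤
      hc G (fun p => E' p.snd) (fun p => E p.fst) + c0 := by
    have b1 := hc_le_near G (fun p => E' p.snd) (fun p => E p.fst) (fun p => S 0 p.fst)
    have b2 : hc G (fun p => E' p.snd) (fun p => (S 0 p.fst, E p.fst)) ≤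
        hc G (fun p => E' p.snd) (fun p => E p.fst) :=
      hc_mono_right G _ fun _ _ _ _ e => congrArg Prod.snd e
    have b3 : hc G (fun p => E p.fst) (fun p => S 0 p.fst) = hc P E (S 0) := two_hc P K _ _
    linarith
  -- the chain
  have a5 : ∑ w ∈ range N, (mi G (fun p => E' p.snd) (fun p => S (w + 1) p.fst)
      (fun p => S w p.fst) - ν w) ≤ hc G (fun p => E' p.snd) (fun p => S 0 p.fst) := by
    have b1 : ∀ w ∈ range N, mi G (fun p => E' p.snd) (fun p => S (w + 1) p.fst)
        (fun p => S w p.fst) - ν w ≤ hc G (fun p => E' p.snd) (fun p => S w p.fst) -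
        hc G (fun p => E' p.snd) (fun p => S (w + 1) p.fst) := by
      intro w hw
      have b2 := mi_near G (fun p => E' p.snd) (fun p => S w p.fst) (fun p => S (w + 1) p.fst)
      have b3 : hc G (fun p => S w p.fst) (fun p => S (w + 1) p.fst) = hc P (S w) (S (w + 1)) :=
        two_hc P K _ _
      have b4 := h1 w (Finset.mem_range.1 hw)
      linarith
    refine (Finset.sum_le_sum b1).trans ?_
    rw [Finset.sum_range_sub' (fun w => hc G (fun p => E' p.snd) (fun p => S w p.fst)) N]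
    have b5 := hc_nonneg G (fun p => E' p.snd) (fun p => S N p.fst)
    linarith
  have a6 : ∑ w ∈ range N, (hc P (X w) (fun ω => (T' w ω, S w ω)) - e w - ν w) ≤
      ∑ w ∈ range N, (mi G (fun p => E' p.snd) (fun p => S (w + 1) p.fst)
      (fun p => S w p.fst) - ν w) := by
    refine Finset.sum_le_sum fun w hw => ?_
    have hw' := Finset.mem_range.1 hw
    have c1 : hc G (fun p => X w p.fst) (fun p => (T' w p.fst, S w p.fst)) =
        hc P (X w) (fun ω => (T' w ω, S w ω)) := two_hc P K _ (fun ω => (T' w ω, S w ω))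
    have c2 := he w hw'
    have c3 : mi G (fun p => E' p.snd) (fun p => (T' w p.fst, X w p.fst)) (fun p => S w p.fst) ≤
        mi G (fun p => E' p.snd) (fun p => S (w + 1) p.fst) (fun p => S w p.fst) := by
      refine mi_mono_right G _ fun p q hp hq e => ?_
      simp only [Prod.mk.injEq] at e
      exact h2 w hw' p.fst q.fst (two_supp hp).1 (two_supp hq).1 e.1
    have c4 := mi_pair G (fun p => E' p.snd) (fun p => T' w p.fst) (fun p => X w p.fst)
      (fun p => S w p.fst)
    have c5 := mi_nonneg G (fun p => E' p.snd) (fun p => T' w p.fst) (fun p => S w p.fst)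
    have c6 : mi G (fun p => E' p.snd) (fun p => X w p.fst) (fun p => (T' w p.fst, S w p.fst)) =
        mi G (fun p => X w p.fst) (fun p => E' p.snd) (fun p => (T' w p.fst, S w p.fst)) :=
      mi_symm G _ _ _
    have c7 : mi G (fun p => X w p.fst) (fun p => E' p.snd) (fun p => (T' w p.fst, S w p.fst)) =
        hc G (fun p => X w p.fst) (fun p => (T' w p.fst, S w p.fst)) -
        hc G (fun p => X w p.fst) (fun p => (E' p.snd, (T' w p.fst, S w p.fst))) := rfl
    linarith
  linarith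

/-- **RISE**, approximately nested cells, information form -/
theorem rise_near {Λ σ χ τ : Type*} (l : Ω → Λ) (E E' : Ω → V) (S : ℕ → Ω → σ) (X : ℕ → Ω → χ)
    (T' : ℕ → Ω → τ) (N : ℕ) {c0 : ℝ} {ν e : ℕ → ℝ}
    (h0 : hc P E (S 0) ≤ c0)
    (h1 : ∀ w < N, hc P (S w) (S (w + 1)) ≤ ν w)
    (h2 : ∀ w < N, Fn P (fun ω => (T' w ω, X w ω)) (S (w + 1)))
    (he : ∀ w < N, hc (two P fun ω => (l ω, E ω)) (fun p => X w p.fst)
      (fun p => (E' p.snd, (T' w p.fst, S w p.fst))) ≤ e w) :
    ∑ w ∈ range N, (hc P (X w) (fun ω => (T' w ω, S w ω)) - e w - ν w) - c0 -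
      hc P E' (fun ω => (l ω, E ω)) ≤ mi P l E' E := by
  have h := rise_tot P (fun ω => (l ω, E ω)) E E' S X T' N
    (fun ω ω' _ _ e => congrArg Prod.snd e) h0 h1 h2 he
  have a1 : mi P l E' E = hc P E' E - hc P E' (fun ω => (l ω, E ω)) := by
    rw [mi_symm]; rfl
  linarith

end

end Vale.Agent.P106.U.H833
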