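import Vale.Agent.P106.U.H833.Psi
import Vale.Agent.P106.U.H118.Sum

/-!
# P106 / U / H833 : composition over one cap (helper833)

`l` the ray, `Z i` the whole letter of the ray side (nested), `tm i` the time digits, `τ i` the letter of the cell,
`C i` the cells (functions of `(l, Z i)`, nested up to `cN`).

* `qc` : price of a step, `cost_sum`.
* `win_cap` : a light window.
* `mic_cap` : the word and the summation (118) for the potential `psi`, conclusion `≤ I(l ; C n | C 0) + H(Z 0 | l, C 0)`.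
-/

set_option autoImplicit false

namespace Vale.Agent.P106.U.H833

open Finset Vale.Agent.P127 Vale.Agent.P127.Stk Vale.Agent.P127.U.Cell
open Vale.Agent.P106.U.H118 (Sdat CS full)

section

variable {Ω : Type} [Fintype Ω] (P : Law Ω) {Λ κ ζ τt δ α θ : Type*}

/-- price of a step of the path -/
noncomputable def qc (l : Ω → Λ) (Z : ℕ → Ω → ζ) (tm : ℕ → Ω → δ) (j : ℕ) : ℝ :=
  hc P (Z (j + 1)) (fun ω => (tm (j + 1) ω, (l ω, Z j ω)))

theorem qc_nonneg (l : Ω → Λ) (Z : ℕ → Ω → ζ) (tm : ℕ → Ω → δ) (j : ℕ) : 0 ≤ qc P l Z tm j :=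
  hc_nonneg P _ _

theorem fn_chain {n : ℕ} {Z : ℕ → Ω → ζ} (hZ : ∀ i < n, Fn P (Z i) (Z (i + 1))) {i k : ℕ}
    (hik : i ≤ k) (hk : k ≤ n) : Fn P (Z i) (Z k) := by
  induction k, hik using Nat.le_induction with
  | base => exact fun ω ω' _ _ e => e
  | succ k _ ih =>
    intro ω ω' p p' e
    exact ih (by omega) ω ω' p p' (hZ k (by omega) ω ω' p p' e)

/-- the price of a window -/
theorem cost_sum {n : ℕ} (l : Ω → Λ) {Z : ℕ → Ω → ζ} {tm : ℕ → Ω → δ} {τ : ℕ → Ω → τt}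
    (hτ : ∀ i < n, Fn P (τ i) (τ (i + 1))) (htm : ∀ i ≤ n, Fn P (tm i) (τ i)) {i k : ℕ}
    (hik : i ≤ k) (hk : k ≤ n) :
    hc P (Z k) (fun ω => (τ k ω, (l ω, Z i ω))) ≤ ∑ j ∈ Ico i k, qc P l Z tm j := by
  have key : ∀ k', i ≤ k' → k' ≤ k → hc P (Z k') (fun ω => (τ k ω, (l ω, Z i ω))) ≤
      ∑ j ∈ Ico i k', qc P l Z tm j := by
    intro k' hk'
    induction k', hk' using Nat.le_induction with
    | base =>
      intro _
      rw [Ico_self, sum_empty]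
      refine le_of_eq (hc_zero P ?_)
      intro ω ω' _ _ e
      simp only [Prod.mk.injEq] at e
      exact e.2.2
    | succ k' hk' ih =>
      intro h
      rw [Finset.sum_Ico_succ_top hk']
      have h1 := ih (by omega)
      have h2 := hc_le_add P (Z (k' + 1)) (Z k') (fun ω => (τ k ω, (l ω, Z i ω)))
      have h3 : hc P (Z (k' + 1)) (fun ω => (Z k' ω, (τ k ω, (l ω, Z i ω)))) ≤ qc P l Z tm k' := by
        unfold qc
        refine hc_mono_right P _ fun ω ω' p p' e => ?_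
        simp only [Prod.mk.injEq] at e ⊢
        refine ⟨?_, e.2.2.1, e.1⟩
        exact htm (k' + 1) (by omega) ω ω' p p'
          (fn_chain P hτ h hk ω ω' p p' e.2.1)
      linarith
  exact key k hik le_rfl

/-- everything that is known about one light window -/
structure Wnd (n : ℕ) (l : Ω → Λ) (Z : ℕ → Ω → ζ) (τ : ℕ → Ω → τt) (C : ℕ → Ω → κ) (i k : ℕ)
    (A : ℕ → Ω → α) (Θ : Ω → θ) (cA cJ : ℝ) (s : ℕ → ℝ) : Prop where
  hΘ : Fn P (τ k) Θ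
  hJ : hc P (A k) (fun ω => (Θ ω, C k ω)) ≤ cJ
  hA : ∀ j, i ≤ j → j < k → hc P (A j) (fun ω => (A (j + 1) ω, Θ ω)) ≤ cA
  hs : ∀ j, i ≤ j → j < k → s j ≤ hc P (A (j + 1)) (fun ω => (A j ω, (C (j + 1) ω, Θ ω)))

/-- **a light window** in terms of `psi` -/
theorem win_cap {n : ℕ} (l : Ω → Λ) {Z : ℕ → Ω → ζ} {tm : ℕ → Ω → δ} {τ : ℕ → Ω → τt}
    {C : ℕ → Ω → κ} (hZ : ∀ i < n, Fn P (Z i) (Z (i + 1)))
    (hC : ∀ i ≤ n, Fn P (C i) (fun ω => (l ω, Z i ω)))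
    (hτC : ∀ i ≤ n, Fn P (τ i) (C i))
    (hτ : ∀ i < n, Fn P (τ i) (τ (i + 1))) (htm : ∀ i ≤ n, Fn P (tm i) (τ i))
    {cN : ℝ} (hN : ∀ i k, i ≤ k → k ≤ n → hc P (C i) (C k) ≤ cN)
    {i k : ℕ} (hik : i ≤ k) (hk : k ≤ n) {A : ℕ → Ω → α} {Θ : Ω → θ} {cA cJ : ℝ} {s : ℕ → ℝ}
    (W : Wnd P n l Z τ C i k A Θ cA cJ s) :
    ∑ j ∈ Ico i k, s j - (cA + cN) * ((k : ℝ) - i) - (cJ + cN) - ∑ j ∈ Ico i k, qc P l Z tm j ≤
      psi P l Z C k - psi P l Z C i := by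
  have h := psi_win P l Z C (τ k) Θ A hik (fn_chain P hZ hik hk) (hC i (by omega)) (hτC k hk)
    W.hΘ (hN i k hik hk) W.hJ (c := fun _ => cA) (ν := fun _ => cN) (s := s) W.hA
    (fun j h1 h2 => hN i (j + 1) (by omega) (by omega)) W.hs
  have h2 := cost_sum P l (Z := Z) (tm := tm) (τ := τ) hτ htm hik hk
  have h3 : ∑ j ∈ Ico i k, (s j - cA - cN) = ∑ j ∈ Ico i k, s j - (cA + cN) * ((k : ℝ) - i) := by
    rw [Finset.sum_sub_distrib, Finset.sum_sub_distrib, Finset.sum_const, Finset.sum_const,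
      Nat.card_Ico, nsmul_eq_mul, nsmul_eq_mul, Nat.cast_sub hik]
    ring
  rw [h3] at h
  linarith

/-- the trivial bound -/
theorem triv_cap {n : ℕ} (l : Ω → Λ) {Z : ℕ → Ω → ζ} {tm : ℕ → Ω → δ} {τ : ℕ → Ω → τt}
    {C : ℕ → Ω → κ} (hZ : ∀ i < n, Fn P (Z i) (Z (i + 1)))
    (hC : ∀ i ≤ n, Fn P (C i) (fun ω => (l ω, Z i ω)))
    (hτC : ∀ i ≤ n, Fn P (τ i) (C i))
    (hτ : ∀ i < n, Fn P (τ i) (τ (i + 1))) (htm : ∀ i ≤ n, Fn P (tm i) (τ i))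
    {cN : ℝ} (hN : ∀ i k, i ≤ k → k ≤ n → hc P (C i) (C k) ≤ cN)
    {i k : ℕ} (hik : i ≤ k) (hk : k ≤ n) :
    - cN - ∑ j ∈ Ico i k, qc P l Z tm j ≤ psi P l Z C k - psi P l Z C i := by
  have h := psi_triv P l Z C (τ k) (fn_chain P hZ hik hk) (hC i (by omega)) (hτC k hk)
  have h1 := hN i k hik hk
  have h2 := cost_sum P l (Z := Z) (tm := tm) (τ := τ) hτ htm hik hk
  linarith

/-- price of a heavy interval -/
theorem cost_heavy {n : ℕ} (l : Ω → Λ) {Z : ℕ → Ω → ζ} {tm : ℕ → Ω → δ}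
    {T : ℝ} (hT : ∀ j < n, hc P (tm (j + 1)) (fun ω => (l ω, Z j ω)) ≤ T) {a : ℕ → ℕ}
    (ha : ∀ j < n, a (j + 1) = a j + 1 ∨ (a (j + 1) = a j ∧ Fn P (tm (j + 1)) (Z j)))
    {i k : ℕ} (hik : i ≤ k) (hk : k ≤ n) :
    hc P (Z k) (fun ω => (l ω, Z i ω)) ≤ T * ((a k : ℝ) - a i) + ∑ j ∈ Ico i k, qc P l Z tm j := by
  induction k, hik using Nat.le_induction with
  | base =>
    rw [Ico_self, sum_empty, sub_self, mul_zero, add_zero]
    refine le_of_eq (hc_zero P ?_)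
    intro ω ω' _ _ e
    simp only [Prod.mk.injEq] at e
    exact e.2
  | succ k hik ih =>
    rw [Finset.sum_Ico_succ_top hik]
    have h1 := ih (by omega)
    have h2 := hc_le_add P (Z (k + 1)) (Z k) (fun ω => (l ω, Z i ω))
    have h3 : hc P (Z (k + 1)) (fun ω => (Z k ω, (l ω, Z i ω))) ≤
        hc P (Z (k + 1)) (fun ω => (l ω, Z k ω)) :=
      hc_mono_right P _ fun ω ω' _ _ e => by
        simp only [Prod.mk.injEq] at e ⊢
        exact ⟨e.2.1, e.1⟩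
    have h4 := hc_le_add P (Z (k + 1)) (tm (k + 1)) (fun ω => (l ω, Z k ω))
    have h5 : hc P (Z (k + 1)) (fun ω => (tm (k + 1) ω, (l ω, Z k ω))) = qc P l Z tm k := rfl
    rcases ha k (by omega) with h6 | ⟨h6, h7⟩
    · have h8 := hT k (by omega)
      rw [h6]
      push_cast
      linarith
    · have h8 : hc P (tm (k + 1)) (fun ω => (l ω, Z k ω)) = 0 :=
        hc_zero P fun ω ω' p p' e => by
          simp only [Prod.mk.injEq] at e
          exact h7 ω ω' p p' e.2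
      rw [h6]
      linarith

/-- **composition over one cap** : the word and the summation for the potential `psi` -/
theorem mic_cap {p θ₀ n : ℕ} {g : ℕ → Prop} {a R : ℕ → ℕ} (hp : 0 < p) (hn : 0 < n)
    (D : Sdat n g a R) (h0 : g 0) (E : Finset ℕ) (hE : ∀ i < n, a (i + 1) = a i + 1 → ¬ g i → i ∈ E)
    (M : ℕ → ℕ) (hM : Monotone M) (hθ : 1 ≤ θ₀) (hθM : θ₀ ≤ M 0) :
    ∃ s < p, ∀ (L1 L2 K0 J0 : ℕ) (_ : 0 < L1) (_ : L1 + J0 * K0 ≤ L2)
      (_ : ∀ j, j + J0 ≤ n → R j + 1 ≤ R (j + J0))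
      (l : Ω → Λ) (Z : ℕ → Ω → ζ) (tm : ℕ → Ω → δ) (τ : ℕ → Ω → τt) (C : ℕ → Ω → κ)
      (_ : ∀ i < n, Fn P (Z i) (Z (i + 1)))
      (_ : ∀ i ≤ n, Fn P (C i) (fun ω => (l ω, Z i ω)))
      (_ : ∀ i ≤ n, Fn P (τ i) (C i))
      (_ : ∀ i < n, Fn P (τ i) (τ (i + 1))) (_ : ∀ i ≤ n, Fn P (tm i) (τ i))
      (err u : ℕ → ℝ) (m cN cA cJ ch cw δ₀ η : ℝ) (_ : 0 ≤ m) (_ : 0 ≤ cN) (_ : 0 ≤ cA) (_ : 0 ≤ cJ)
      (_ : 0 ≤ ch) (_ : 0 ≤ cw) (_ : 0 ≤ δ₀) (_ : 0 < η) (_ : ∀ j, 0 ≤ err j) (_ : ∀ z, 0 ≤ u z)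
      (_ : ∀ i k, i ≤ k → k ≤ n → hc P (C i) (C k) ≤ cN)
      (T : Finset ℕ) (_ : ∀ z, z ∉ T → u z = 0)
      (A : ℕ → ℕ → ℕ → Ω → α) (Θ : ℕ → ℕ → Ω → θ)
      (_ : ∀ i k i1, i ≤ k → k ≤ i + L1 → k ≤ i1 → i1 ≤ n → i1 ≤ i + L2 → a k + K0 ≤ a i1 →
        R k + K0 ≤ R i1 → Wnd P n l Z τ C i k (A i k) (Θ i k) cA cJ
          (fun j => by
            classical
            exact if j ∈ CS (M s) n g a R i k then full m a R j - err j else 0))
      (_ : ∀ i i1, g i → i < i1 → i1 ≤ n → R i + M (s + 1) < R i1 →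
        m * (1 - δ₀) * ((R i1 : ℝ) - R i) - m * cw * ((a i1 : ℝ) - a i) -
          ∑ z ∈ Icc (a i) (a i + (R i1 - R i)), u z - ch - ∑ j ∈ Ico i i1, qc P l Z tm j ≤
          psi P l Z C i1 - psi P l Z C i),
      ∃ Hn F2 : ℕ, (M (s + 1) + 1) * Hn ≤ R n - R 0 ∧
        F2 * (L2 - L1) ≤ (M s + 1) * (L1 + K0) * n ∧
      3 * m * ((a n : ℝ) - a 0) + m * ((R n : ℝ) - R 0) -
        (∑ j ∈ range n, err j + ∑ j ∈ range n, qc P l Z tm j + (cA + cN) * n +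
          ((cJ + cN) + (cA + cN)) * ((n : ℝ) / L1 + Hn + 1) +
          m * ((M s : ℝ) * (E.card + 1) + ((R n : ℝ) - R 0) / p) + 3 * m * ((L2 : ℝ) + F2) +
          (m * δ₀ + η) * ((R n : ℝ) - R 0) +
          (m * (cw + 3) + η) * (2 * ((R n : ℝ) - R 0) / θ₀ + E.card) + (ch + (cA + cN)) * Hn +
          m * ((20 * θ₀ + 1) / η * ∑ z ∈ T, u z)) - hc P (Z 0) (fun ω => (l ω, C 0 ω)) ≤
        mi P l (C n) (C 0) := by
  classical
  obtain ⟨s, hs, hsum⟩ := H118.summation (p := p) (θ := θ₀) hp hn D h0 E hE M hM hθ hθM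
  refine ⟨s, hs, ?_⟩
  intro L1 L2 K0 J0 hL1 hL2 hF l Z tm τ C hZ hC hτC hτ htm err u m cN cA cJ ch cw δ₀ η hm hcN hcA hcJ
    hch hcw hδ₀ hη herr hu hN T hT A Θ hW hH
  obtain ⟨Hn, F2, e1, e2, e3⟩ := hsum L1 L2 K0 J0 hL1 hL2 hF (psi P l Z C) err (qc P l Z tm) u m
    (cA + cN) (cJ + cN) ch cw δ₀ η hm (by positivity) (by positivity) hch hcw hδ₀ hη herr hu T hT
    (by
      intro i k i1 h1 h2 h3 h4 h5 h6 h7
      have h8 := win_cap P l (tm := tm) hZ hC hτC hτ htm hN h1 (by omega) (hW i k i1 h1 h2 h3 h4 h5 h6 h7)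
      have h9 : ∑ j ∈ Ico i k, (if j ∈ CS (M s) n g a R i k then full m a R j - err j else 0) =
          ∑ j ∈ CS (M s) n g a R i k, (full m a R j - err j) := by
        rw [← Finset.sum_filter]
        refine Finset.sum_congr ?_ fun _ _ => rfl
        ext j
        rw [Finset.mem_filter, Finset.mem_Ico]
        exact ⟨fun h => h.2, fun h => ⟨(H118.mem_CS.1 h).1, h⟩⟩
      have h10 : (∑ j ∈ Ico i k, (fun j => if j ∈ CS (M s) n g a R i k then full m a R j - err j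
          else 0) j) = ∑ j ∈ CS (M s) n g a R i k, (full m a R j - err j) := h9
      rw [← h10]
      convert h8 using 0)
    (by
      intro i k h1 h2
      have h8 := triv_cap P l (tm := tm) hZ hC hτC hτ htm hN h1 h2
      linarith)
    hH
  refine ⟨Hn, F2, e1, e2, ?_⟩
  have h4 := psi_total P l Z C n (fn_chain P hZ (Nat.zero_le n) le_rfl) (hC n le_rfl)
  linarith

end

end Vale.Agent.P106.U.H833
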