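import Vale.Agent.P106.U.H833.CapC

/-!
# P106 / U / H833 : windows and trivial pieces with LOCAL hypotheses, given the time only (helper833)

The composition is `H652.sum_par` for `psi P l Z C` (any cells `C`, any windows, price `q = qc + x` with any `x ≥ 0`),
then `psi_total`.

* `Wnd.time` : a window given `T i'` is a window given the time digits.
* `win_loc` : light window, nestedness only inside the window, letter `τ` := time digits.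
* `triv_loc` : trivial piece with losses `ν` of the nestedness at some steps (put `ν` into the price `q`).
* `mic_q` : `sum_par` + `psi_total`.
-/

set_option autoImplicit false

namespace Vale.Agent.P106.U.H833

open Finset Vale.Agent.P127 Vale.Agent.P127.Stk Vale.Agent.P127.U.Cell
open Vale.Agent.P106.U.H118 (Sdat CS full)

section

variable {Ω : Type} [Fintype Ω] (P : Law Ω) {Λ κ ζ τt δ α θ : Type*}

theorem Wnd.time {n : ℕ} {l : Ω → Λ} {Z : ℕ → Ω → ζ} {τ : ℕ → Ω → τt} {tm : ℕ → Ω → δ} {C : ℕ → Ω → κ} {i k : ℕ}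
    {A : ℕ → Ω → α} {Θ : Ω → θ} {cA cJ : ℝ} {s : ℕ → ℝ} (W : Wnd P n l Z τ C i k A Θ cA cJ s)
    (h : Fn P (tm k) (τ k)) : Wnd P n l Z tm C i k A Θ cA cJ s where
  hΘ := fun ω ω' p p' e => h ω ω' p p' (W.hΘ ω ω' p p' e)
  hJ := W.hJ
  hA := W.hA
  hs := W.hs

/-- price of a window given the time of its end -/
theorem cost_time {n : ℕ} (l : Ω → Λ) {Z : ℕ → Ω → ζ} {tm : ℕ → Ω → δ}
    (htm : ∀ i < n, Fn P (tm i) (tm (i + 1))) {i k : ℕ} (hik : i ≤ k) (hk : k ≤ n) :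
    hc P (Z k) (fun ω => (tm k ω, (l ω, Z i ω))) ≤ ∑ j ∈ Ico i k, qc P l Z tm j :=
  cost_sum P l (Z := Z) (tm := tm) (τ := tm) htm (fun _ _ _ _ _ _ e => e) hik hk

/-- **light window, local form** -/
theorem win_loc {n : ℕ} (l : Ω → Λ) {Z : ℕ → Ω → ζ} {tm : ℕ → Ω → δ} {C : ℕ → Ω → κ}
    (hZ : ∀ i < n, Fn P (Z i) (Z (i + 1))) (htm : ∀ i < n, Fn P (tm i) (tm (i + 1)))
    {i k : ℕ} (hik : i ≤ k) (hk : k ≤ n) (hC : Fn P (C i) (fun ω => (l ω, Z i ω))) (hτC : Fn P (tm k) (C k))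
    {cN : ℝ} (hN : ∀ j, i ≤ j → j ≤ k → hc P (C i) (C j) ≤ cN)
    {A : ℕ → Ω → α} {Θ : Ω → θ} {cA cJ : ℝ} {s : ℕ → ℝ}
    (W : Wnd P n l Z tm C i k A Θ cA cJ s) :
    ∑ j ∈ Ico i k, s j - (cA + cN) * ((k : ℝ) - i) - (cJ + cN) - ∑ j ∈ Ico i k, qc P l Z tm j ≤
      psi P l Z C k - psi P l Z C i := by
  have h := psi_win P l Z C (tm k) Θ A hik (fn_chain P hZ hik hk) hC hτC
    W.hΘ (hN k hik le_rfl) W.hJ (c := fun _ => cA) (ν := fun _ => cN) (s := s) W.hA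
    (fun j h1 h2 => hN (j + 1) (by omega) (by omega)) W.hs
  have h2 := cost_time P l (Z := Z) (tm := tm) htm hik hk
  have h3 : ∑ j ∈ Ico i k, (s j - cA - cN) = ∑ j ∈ Ico i k, s j - (cA + cN) * ((k : ℝ) - i) := by
    rw [Finset.sum_sub_distrib, Finset.sum_sub_distrib, Finset.sum_const, Finset.sum_const,
      Nat.card_Ico, nsmul_eq_mul, nsmul_eq_mul, Nat.cast_sub hik]
    ring
  rw [h3] at h
  linarith

/-- **trivial piece** with losses of the nestedness -/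
theorem triv_loc {n : ℕ} (l : Ω → Λ) {Z : ℕ → Ω → ζ} {tm : ℕ → Ω → δ} {C : ℕ → Ω → κ}
    (hZ : ∀ i < n, Fn P (Z i) (Z (i + 1))) (htm : ∀ i < n, Fn P (tm i) (tm (i + 1)))
    {i k : ℕ} (hik : i ≤ k) (hk : k ≤ n) (hC : Fn P (C i) (fun ω => (l ω, Z i ω))) (hτC : Fn P (tm k) (C k))
    {cN : ℝ} {ν : ℕ → ℝ} (hN : hc P (C i) (C k) ≤ cN + ∑ j ∈ Ico i k, ν j) :
    - cN - ∑ j ∈ Ico i k, (qc P l Z tm j + ν j) ≤ psi P l Z C k - psi P l Z C i := by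
  have h := psi_triv P l Z C (tm k) (fn_chain P hZ hik hk) hC hτC
  have h2 := cost_time P l (Z := Z) (tm := tm) htm hik hk
  rw [Finset.sum_add_distrib]
  linarith

/-- change of the cells at one index: `psi` for `C` and `psi` for `C'` -/
theorem psi_chg (l : Ω → Λ) (Z : ℕ → Ω → ζ) {κ' : Type*} (C : ℕ → Ω → κ) (C' : ℕ → Ω → κ') (i : ℕ) :
    psi P l Z C i ≤ psi P l Z C' i + hc P (C i) (C' i) := by
  have h1 : P.H (C i) ≤ P.H (C' i) + hc P (C i) (C' i) := by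
    unfold hc
    have h2 : P.H (C i) ≤ P.H (fun ω => (C i ω, C' i ω)) := P.H_mono fun ω ω' e => congrArg Prod.fst e
    linarith
  unfold psi
  linarith

/-- **composition** : `sum_par` for `psi`, any price `q` -/
theorem mic_q {K ε cw : ℝ} (hK : 0 < K) (hε : 0 < ε) (hcw : 0 ≤ cw) (CJ CH : ℕ → ℝ)
    (hCJ : ∀ x, 0 ≤ CJ x) (hCH : ∀ x, 0 ≤ CH x) :
    ∃ (p : ℕ) (M : ℕ → ℕ) (δ0 e1 e3 : ℝ), 0 < p ∧ Monotone M ∧ 0 < δ0 ∧ 0 < e1 ∧ 0 < e3 ∧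
      ∀ (KK : ℕ → ℕ) (J0 : ℕ), ∃ (L1 L2 : ℕ → ℕ), (∀ s, 0 < L1 s ∧ L1 s ≤ L2 s) ∧
      ∀ c1 : ℝ, 0 ≤ c1 → ∃ m0 : ℝ, 1 ≤ m0 ∧ ∀ m : ℝ, m0 ≤ m → ∃ h0 : ℝ, 0 < h0 ∧ ∀ h : ℝ, h0 ≤ h →
        ∀ (n : ℕ) (g : ℕ → Prop) (a R : ℕ → ℕ), 0 < n → Sdat n g a R → g 0 →
        (∀ j, j + J0 ≤ n → R j + 1 ≤ R (j + J0)) → m * n ≤ K * h → m * ((R n : ℝ) - R 0) ≤ K * h →
        ∀ E : Finset ℕ, (∀ i < n, a (i + 1) = a i + 1 → ¬ g i → i ∈ E) → m * E.card ≤ e1 * h →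
        ∃ s < p, ∀ {Ω : Type} [Fintype Ω] (P : Law Ω) {Λ κ ζ : Type} (l : Ω → Λ) (Z : ℕ → Ω → ζ) (C : ℕ → Ω → κ)
          (err q u : ℕ → ℝ) (cj ch δ : ℝ), 0 ≤ cj → 0 ≤ ch → 0 ≤ δ →
          cj ≤ m * CJ (M s) → ch ≤ m * CH (M s) → δ ≤ δ0 → (∀ j, 0 ≤ err j) → (∀ z, 0 ≤ u z) →
          ∀ T : Finset ℕ, (∀ z, z ∉ T → u z = 0) →
          ∑ j ∈ range n, err j ≤ ε / 16 * h → ∑ j ∈ range n, q j ≤ ε / 16 * h →
          ∑ z ∈ T, u z ≤ e3 * h →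
          Fn P (Z 0) (Z n) → Fn P (C n) (fun ω => (l ω, Z n ω)) →
          (∀ i k i1, i ≤ k → k ≤ i + L1 s → k ≤ i1 → i1 ≤ n → i1 ≤ i + L2 s → a k + KK (M s) ≤ a i1 →
            R k + KK (M s) ≤ R i1 →
            ∑ j ∈ CS (M s) n g a R i k, (full m a R j - err j) - c1 * ((k : ℝ) - i) - cj -
              ∑ j ∈ Ico i k, q j ≤ psi P l Z C k - psi P l Z C i) →
          (∀ i k, i ≤ k → k ≤ n → - c1 - ∑ j ∈ Ico i k, q j ≤ psi P l Z C k - psi P l Z C i) →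
          (∀ i i1, g i → i < i1 → i1 ≤ n → R i + M (s + 1) < R i1 →
            m * (1 - δ) * ((R i1 : ℝ) - R i) - m * cw * ((a i1 : ℝ) - a i) -
              ∑ z ∈ Icc (a i) (a i + (R i1 - R i)), u z - ch - ∑ j ∈ Ico i i1, q j ≤
                psi P l Z C i1 - psi P l Z C i) →
          3 * m * ((a n : ℝ) - a 0) + m * ((R n : ℝ) - R 0) - ε * h - hc P (Z 0) (fun ω => (l ω, C 0 ω)) ≤
            mi P l (C n) (C 0) := by
  obtain ⟨p, M, δ0, e1, e3, q1, q2, q3, q4, q5, H⟩ := H652.sum_par hK hε hcw CJ CH hCJ hCH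
  refine ⟨p, M, δ0, e1, e3, q1, q2, q3, q4, q5, ?_⟩
  intro KK J0
  obtain ⟨L1, L2, q6, H⟩ := H KK J0
  refine ⟨L1, L2, q6, ?_⟩
  intro c1 hc1
  obtain ⟨m0, q7, H⟩ := H c1 hc1
  refine ⟨m0, q7, ?_⟩
  intro m hm
  obtain ⟨h0, r1, H⟩ := H m hm
  refine ⟨h0, r1, ?_⟩
  intro h hh n g a R hn D g0 hF hnK hrK E hE hEc
  obtain ⟨s, hs, H⟩ := H h hh n g a R hn D g0 hF hnK hrK E hE hEc
  refine ⟨s, hs, ?_⟩
  intro Ω _ P Λ κ ζ l Z C err q u cj ch δ hcj hch hδ k2 k3 k4 e0 u0 T uT s1 s2 s3 hZ hC w1 w2 w3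
  have H1 := H (psi P l Z C) err q u cj ch δ hcj hch hδ k2 k3 k4 e0 u0 T uT s1 s2 s3 w1 w2 w3
  have h4 := psi_total P l Z C n hZ hC
  linarith

end

end Vale.Agent.P106.U.H833
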