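import Vale.Agent.P106.U.H833.Comp
import Vale.Agent.P106.U.H84.Cha

/-!
# P106 / U / H833 : light windows over the cells of `U/Cell.lean` (helper833)

* `SatN` : the N-step, in the form which is summed over a window.
* `wnd_cell` : the structure `Wnd` for the cells of helper101.
-/

set_option autoImplicit false

namespace Vale.Agent.P106.U.H833

open Finset Vale.Agent.P127 Vale.Agent.P127.Stk Vale.Agent.P127.U.Cell
open Vale.Agent.P106.U.Cell

/-- **the N-step** : positions of the steps `j`, `j + 1`, read at the time of `i'`, letter `Θ` of the step `i'` -/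
def SatN {Ω τ θ : Type} [Fintype Ω] (P : Law Ω) (C : Pth Ω τ) (b j i' : ℕ) (Θ : Ω → θ) (s : ℝ) : Prop :=
  s ≤ hc P (C.A (j + 1) b i') (fun ω => (C.A j b i' ω, (C.cell (j + 1) b ω, Θ ω)))

/-- **the (V,Z)-step** : nominal `(X,Z)`-position at the own time -/
def SatV {Ω τ θ : Type} [Fintype Ω] (P : Law Ω) (C : Pth Ω τ) (b k k' : ℕ) (Θ : Ω → θ) (s : ℝ) : Prop :=
  s ≤ hc P (C.VZ k' b) (fun ω => (C.VZ k b ω, (C.cell k b ω, Θ ω)))

/-- chain constant -/
noncomputable def cCha (K : ℝ) : ℝ := 2 * Real.log (2 * ⌈118 * K ^ 5⌉₊ + 3 : ℕ)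

theorem cCha_nonneg (K : ℝ) : 0 ≤ cCha K := by
  unfold cCha
  have : (1 : ℝ) ≤ ((2 * ⌈118 * K ^ 5⌉₊ + 3 : ℕ) : ℝ) := by
    have : 1 ≤ 2 * ⌈118 * K ^ 5⌉₊ + 3 := by omega
    exact_mod_cast this
  have := Real.log_nonneg this
  linarith

/-- **a light window over the cells** -/
theorem wnd_cell {Ω τ : Type} [Fintype Ω] (P : Law Ω) (C : Pth Ω τ) {Λ ζ θ : Type} {K : ℝ} (hK : 1 ≤ K)
    (hok : ∀ ω, 0 < P.w ω → C.Ok K ω) {n b i k i' : ℕ} (hki : k ≤ i')
    (hL : ∀ j, i ≤ j → j < k → C.Lev j b) (l : Ω → Λ) (Z : ℕ → Ω → ζ) {Θ : Ω → θ} (hΘ : Fn P (C.T i') Θ)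
    {cJ : ℝ} (hJ : hc P (C.A k b i') (fun ω => (Θ ω, C.cell k b ω)) ≤ cJ) {s : ℕ → ℝ}
    (hs : ∀ j, i ≤ j → j < k → SatN P C b j i' Θ (s j)) :
    Wnd P n l Z C.T (fun j => C.cell j b) i k (fun j => C.A j b i') Θ (cCha K) cJ s where
  hΘ := by
    intro ω ω' p p' e
    have h1 := hΘ ω ω' p p' e
    have key : ∀ j, k ≤ j → ∀ ω ω' : Ω, C.T j ω = C.T j ω' → C.T k ω = C.T k ω' := by
      intro j hj
      induction j, hj using Nat.le_induction with
      | base => exact fun _ _ e => e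
      | succ j _ ih => exact fun ω ω' e => ih ω ω' (C.hT j ω ω' e)
    exact key i' hki ω ω' h1
  hJ := hJ
  hA := by
    intro j h1 h2
    have h3 := H84.cha C P hK hok (j := j) (b := b) (i' := i') (by omega) (hL j h1 h2)
    refine le_trans (hc_mono_right P _ fun ω ω' p p' e => ?_) h3
    simp only [Prod.mk.injEq] at e ⊢
    exact ⟨e.1, hΘ ω ω' p p' e.2⟩
  hs := hs

end Vale.Agent.P106.U.H833
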