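import Vale.Agent.P106.U.H833.Par
import Vale.Agent.P106.U.H833.WinC
import Vale.Agent.P106.U.H300.N2

/-!
# P106 / U / H833 : the structure `Cap` over the cells of `U/Cell.lean` (helper833)

* `cell_fn` : the cell is a function of the ray, of the letter `T i` and of the digits of the own slope.
* `cap_of` : `Cap` from the N-step (`SatN`) in every admissible window, the junctions, and the heavy intervals.
-/

set_option autoImplicit false

namespace Vale.Agent.P106.U.H833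

open Finset Vale.Agent.P127 Vale.Agent.P127.Stk
open Vale.Agent.P127.U.CellD (rd)
open Vale.Agent.P106.U.Cell
open Vale.Agent.P106.U.H118 (Sdat CS full)

section

variable {Ω τ : Type} (C : Pth Ω τ)

theorem F_fn {i : ℕ} {ω ω' : Ω} (hl : C.l ω = C.l ω') (hT : C.T i ω = C.T i ω')
    (hp : fl1 (C.rf i) (C.p ω) = fl1 (C.rf i) (C.p ω')) : C.F i ω = C.F i ω' := by
  have h1 : rd (C.rf i) (C.p ω) = rd (C.rf i) (C.p ω') := by unfold rd; rw [hp]
  unfold Pth.F
  rw [hl, hT, h1]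

/-- the cell is a function of the ray, of the letter and of the digits of the own slope -/
theorem cell_fn {i b : ℕ} {ω ω' : Ω} (hl : C.l ω = C.l ω') (hT : C.T i ω = C.T i ω')
    (hp : fl1 (C.rf i) (C.p ω) = fl1 (C.rf i) (C.p ω')) : C.cell i b ω = C.cell i b ω' := by
  have hF := F_fn C hl hT hp
  have hs : C.s i ω = C.s i ω' := (Pth.s_eq hT).symm
  have hsl : C.sl i b ω = C.sl i b ω' := by
    unfold Pth.sl
    rw [hF, hl]
  have hFr : ∀ m, C.Fr i b m ω = C.Fr i b m ω' := by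
    intro m
    unfold Pth.Fr
    rw [hF, hsl, hl]
  have hZ : C.Zs b (C.s i ω) ω = C.Zs b (C.s i ω') ω' := by
    unfold Pth.Zs
    rw [hl, hs]
  have hva : C.va i b ω = C.va i b ω' := by
    unfold Pth.va
    rw [hFr, hZ, hsl, hl, hs]
  unfold Pth.cell Pth.dg
  rw [hT, hva, hl]

end

/-- constant of the nestedness -/
noncomputable def cNst (K : ℝ) : ℝ := 9 * Real.log (2 * H300.MK K + 3)

theorem cNst_nonneg (K : ℝ) : 0 ≤ cNst K := by
  unfold cNst
  have h0 : (0 : ℝ) ≤ (H300.MK K : ℝ) := by positivity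
  have : (1 : ℝ) ≤ 2 * H300.MK K + 3 := by linarith
  have := Real.log_nonneg this
  linarith

/-- **`Cap` over the cells** -/
theorem cap_of {Ω τ : Type} [Fintype Ω] (P : Law Ω) (C : Pth Ω τ) {ζ θ : Type} {K : ℝ} (hK : 1 ≤ K)
    (hok : ∀ ω, 0 < P.w ω → C.Ok K ω) {n b : ℕ} {g : ℕ → Prop} {a R : ℕ → ℕ} {M0 M1 L1 L2 K0 : ℕ} {m : ℝ}
    (hL : ∀ i ≤ n, C.Lev i b) (Zw : ℕ → Ω → ζ)
    (hZ : ∀ i < n, Fn P (Zw i) (Zw (i + 1)))
    (hZT : ∀ i ≤ n, Fn P (C.T i) (Zw i))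
    (hZp : ∀ i ≤ n, Fn P (fun ω => fl1 (C.rf i) (C.p ω)) (Zw i))
    (ip : ℕ → ℕ → ℕ) (Θ : ℕ → ℕ → Ω → θ) (err u : ℕ → ℝ) (err0 : ∀ j, 0 ≤ err j) (u0 : ∀ z, 0 ≤ u z)
    (T : Finset ℕ) (uT : ∀ z, z ∉ T → u z = 0) {cJ ch cw δ₀ : ℝ}
    (hlight : ∀ i k i1, i ≤ k → k ≤ i + L1 → k ≤ i1 → i1 ≤ n → i1 ≤ i + L2 → a k + K0 ≤ a i1 →
      R k + K0 ≤ R i1 → k ≤ ip i k ∧ Fn P (C.T (ip i k)) (Θ i k) ∧
        hc P (C.A k b (ip i k)) (fun ω => (Θ i k ω, C.cell k b ω)) ≤ cJ ∧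
        ∀ j ∈ CS M0 n g a R i k, SatN P C b j (ip i k) (Θ i k) (full m a R j - err j))
    (heavy : ∀ i i1, g i → i < i1 → i1 ≤ n → R i + M1 < R i1 →
      m * (1 - δ₀) * ((R i1 : ℝ) - R i) - m * cw * ((a i1 : ℝ) - a i) -
        ∑ z ∈ Icc (a i) (a i + (R i1 - R i)), u z - ch -
          ∑ j ∈ Ico i i1, qc P C.l Zw (fun i ω => fl1 (C.a i) (C.t ω)) j ≤
        psi P C.l Zw (fun i => C.cell i b) i1 - psi P C.l Zw (fun i => C.cell i b) i) :
    Cap P n g a R M0 M1 L1 L2 K0 m C.l Zw (fun i ω => fl1 (C.a i) (C.t ω)) C.T (fun i => C.cell i b)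
      (fun i k j => C.A j b (ip i k)) Θ err u T (cNst K) (cCha K) cJ ch cw δ₀ where
  hZ := hZ
  hC := by
    intro i hi ω ω' p p' e
    simp only [Prod.mk.injEq] at e
    exact cell_fn C e.1 (hZT i hi ω ω' p p' e.2) (hZp i hi ω ω' p p' e.2)
  hτC := by
    intro i _ ω ω' _ _ e
    exact congrArg Prod.fst e
  hτ := by
    intro i _ ω ω' _ _ e
    exact C.hT i ω ω' e
  htm := by
    intro i _ ω ω' _ _ e
    show fl1 (C.a i) (C.t ω) = fl1 (C.a i) (C.t ω')
    rw [← C.htm i ω, ← C.htm i ω', e]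
  err0 := err0
  u0 := u0
  uT := uT
  hN := by
    intro i k hik hk
    exact H300.n2 P C hK hok hik (hL i (by omega))
  light := by
    classical
    intro i k i1 h1 h2 h3 h4 h5 h6 h7
    obtain ⟨e1, e2, e3, e4⟩ := hlight i k i1 h1 h2 h3 h4 h5 h6 h7
    refine ⟨fun j => if j ∈ CS M0 n g a R i k then max (full m a R j - err j) 0 else 0, ?_, ?_, ?_⟩
    · intro j hj
      show full m a R j - err j ≤ if j ∈ CS M0 n g a R i k then max (full m a R j - err j) 0 else 0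
      rw [if_pos hj]
      exact le_max_left _ _
    · intro j
      show (0 : ℝ) ≤ if j ∈ CS M0 n g a R i k then max (full m a R j - err j) 0 else 0
      split_ifs
      · exact le_max_right _ _
      · exact le_rfl
    · refine wnd_cell P C hK hok e1 (fun j _ h => hL j (by omega)) C.l Zw e2 e3 ?_
      intro j hj1 hj2
      show (if j ∈ CS M0 n g a R i k then max (full m a R j - err j) 0 else 0) ≤ _
      split_ifs with hj
      · exact max_le (e4 j hj) (hc_nonneg P _ _)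
      · exact hc_nonneg P _ _
  heavy := heavy

end Vale.Agent.P106.U.H833
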