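import Vale.Agent.P106.U.S3.Props
import Vale.Agent.P106.U.CellN
import Vale.Agent.P106.U.H118.Sum

/-!
# P106 / U / H833 : the path of a run at one cap, in blocks (helper833)

`R : S3.Run`, cap `x` (in blocks, `b = m x`): levels `aN`, `kN`, `fN`, `RN x = min (kN + x) fN`.

* `lev` : `C.a i = m aN i`, `C.rk i = r0 + m kN i`, `C.rf i = r0 + m fN i`, `C.R i (m x) = r0 + m RN x i`.
* `sdat` : `H118.Sdat` for the path which starts at the step `i0`.
* `adv` : the relative thickness advances when the time advances by `J` blocks.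
-/

set_option autoImplicit false

namespace Vale.Agent.P106.U.H833

open Finset Vale.Agent.P127 Vale.Agent.P127.Stk
open Vale.Agent.P106.U.Cell
open Vale.Agent.P106.U.S3
open Vale.Agent.P106.U.H118 (Sdat CS full)

section

variable {Ω : Type} [Fintype Ω] {τ υ : Type} (R : Run Ω τ υ)

/-- time level in blocks -/
def aN (i : ℕ) : ℕ := R.C.a i / R.m

/-- line level in blocks -/
def kN (i : ℕ) : ℕ := (R.C.rk i - R.r0) / R.m

/-- own slope level in blocks -/
def fN (i : ℕ) : ℕ := (R.C.rf i - R.r0) / R.m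

/-- relative thickness at the cap `x` in blocks -/
def RN (x i : ℕ) : ℕ := min (kN R i + x) (fN R i)

variable {R} {p : Run.Num}

theorem lev_aux (hP : R.Path p) : ∀ i ≤ R.n + p.J,
    (∃ c, R.C.a i = R.m * c) ∧ (∃ c, R.C.rk i = R.r0 + R.m * c) ∧ (∃ c, R.C.rf i = R.r0 + R.m * c) := by
  intro i
  induction i with
  | zero =>
    intro _
    exact ⟨⟨0, by rw [hP.a0, Nat.mul_zero]⟩, ⟨0, by rw [hP.k0, Nat.mul_zero, Nat.add_zero]⟩,
      ⟨0, by rw [hP.f0, Nat.mul_zero, Nat.add_zero]⟩⟩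
  | succ i ih =>
    intro h
    obtain ⟨⟨c1, e1⟩, ⟨c2, e2⟩, ⟨c3, e3⟩⟩ := ih (by omega)
    rcases hP.stp i (by omega) with ⟨h1, h2, h3⟩ | ⟨h1, h2, h3⟩ | ⟨h1, h2, h3⟩
    · exact ⟨⟨c1 + 1, by rw [h1, e1]; ring⟩, ⟨c2, by rw [h3, e2]⟩, ⟨c3, by rw [h2, e3]⟩⟩
    · exact ⟨⟨c1, by rw [h1, e1]⟩, ⟨c2, by rw [h3, e2]⟩, ⟨c3 + 1, by rw [h2, e3]; ring⟩⟩
    · exact ⟨⟨c1, by rw [h1, e1]⟩, ⟨c2 + 1, by rw [h3, e2]; ring⟩, ⟨c3, by rw [h2, e3]⟩⟩

theorem lev_a (hP : R.Path p) {i : ℕ} (hi : i ≤ R.n + p.J) : R.C.a i = R.m * aN R i := by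
  obtain ⟨⟨c, e⟩, _, _⟩ := lev_aux hP i hi
  unfold aN
  rw [e, Nat.mul_div_cancel_left c hP.m1]

theorem lev_k (hP : R.Path p) {i : ℕ} (hi : i ≤ R.n + p.J) : R.C.rk i = R.r0 + R.m * kN R i := by
  obtain ⟨_, ⟨c, e⟩, _⟩ := lev_aux hP i hi
  unfold kN
  rw [e, Nat.add_sub_cancel_left, Nat.mul_div_cancel_left c hP.m1]

theorem lev_f (hP : R.Path p) {i : ℕ} (hi : i ≤ R.n + p.J) : R.C.rf i = R.r0 + R.m * fN R i := by
  obtain ⟨_, _, ⟨c, e⟩⟩ := lev_aux hP i hi
  unfold fN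
  rw [e, Nat.add_sub_cancel_left, Nat.mul_div_cancel_left c hP.m1]

theorem kN_le_fN (hP : R.Path p) {i : ℕ} (hi : i ≤ R.n + p.J) : kN R i ≤ fN R i := by
  have h1 := lev_k hP hi
  have h2 := lev_f hP hi
  have h3 := R.C.hkf i
  have h4 : R.m * kN R i ≤ R.m * fN R i := by omega
  exact Nat.le_of_mul_le_mul_left h4 hP.m1

theorem lev_R (hP : R.Path p) (x : ℕ) {i : ℕ} (hi : i ≤ R.n + p.J) :
    R.C.R i (R.m * x) = R.r0 + R.m * RN R x i := by
  rw [Pth.R_eq, lev_k hP hi, lev_f hP hi]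
  unfold RN
  rw [Nat.add_assoc, ← Nat.mul_add, Nat.add_min_add_left, ← Nat.mul_min_mul_left]

/-- the three kinds of steps -/
theorem stepN (hP : R.Path p) {i : ℕ} (hi : i < R.n + p.J) :
    (aN R (i + 1) = aN R i + 1 ∧ fN R (i + 1) = fN R i ∧ kN R (i + 1) = kN R i ∧ R.IsA i) ∨
    (aN R (i + 1) = aN R i ∧ fN R (i + 1) = fN R i + 1 ∧ kN R (i + 1) = kN R i ∧ ¬ R.IsA i) ∨
    (aN R (i + 1) = aN R i ∧ fN R (i + 1) = fN R i ∧ kN R (i + 1) = kN R i + 1 ∧ ¬ R.IsA i) := by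
  have a0 := lev_a hP (i := i) (by omega)
  have a1 := lev_a hP (i := i + 1) (by omega)
  have k0 := lev_k hP (i := i) (by omega)
  have k1 := lev_k hP (i := i + 1) (by omega)
  have f0 := lev_f hP (i := i) (by omega)
  have f1 := lev_f hP (i := i + 1) (by omega)
  have hm := hP.m1
  have can : ∀ u v : ℕ, R.m * u = R.m * v → u = v := fun u v h => Nat.eq_of_mul_eq_mul_left hm h
  have can1 : ∀ u v : ℕ, R.m * u = R.m * v + R.m → u = v + 1 := fun u v h =>
    can u (v + 1) (by rw [h]; ring)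
  have nA : R.C.a (i + 1) = R.C.a i → ¬ R.IsA i := by
    intro h h'
    unfold Run.IsA at h'
    omega
  rcases hP.stp i hi with ⟨h1, h2, h3⟩ | ⟨h1, h2, h3⟩ | ⟨h1, h2, h3⟩
  · refine Or.inl ⟨can1 _ _ (by rw [← a1, ← a0, h1]), can _ _ ?_, can _ _ ?_, h1⟩
    · omega
    · omega
  · refine Or.inr (Or.inl ⟨can _ _ (by rw [← a1, ← a0, h1]), can1 _ _ ?_, can _ _ ?_, nA h1⟩)
    · omega
    · omega
  · refine Or.inr (Or.inr ⟨can _ _ (by rw [← a1, ← a0, h1]), can _ _ ?_, can1 _ _ ?_, nA h1⟩)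
    · omega
    · omega

theorem aN_step (hP : R.Path p) {i : ℕ} (hi : i < R.n + p.J) : aN R (i + 1) ≤ aN R i + 1 := by
  rcases stepN hP hi with ⟨h, _⟩ | ⟨h, _⟩ | ⟨h, _⟩ <;> omega

theorem aN_mono (hP : R.Path p) {i j : ℕ} (hij : i ≤ j) (hj : j ≤ R.n + p.J) : aN R i ≤ aN R j := by
  have h1 := lev_a hP (i := i) (by omega)
  have h2 := lev_a hP hj
  have h3 := R.C.ha hij
  exact Nat.le_of_mul_le_mul_left (by omega : R.m * aN R i ≤ R.m * aN R j) hP.m1

theorem aN_le (hP : R.Path p) {i j : ℕ} (hij : i ≤ j) (hj : j ≤ R.n + p.J) :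
    aN R j ≤ aN R i + (j - i) := by
  induction j, hij using Nat.le_induction with
  | base => omega
  | succ j _ ih =>
    have h1 := ih (by omega)
    have h2 := aN_step hP (i := j) (by omega)
    omega

theorem RN_mono (hP : R.Path p) (x : ℕ) {i j : ℕ} (hij : i ≤ j) (hj : j ≤ R.n + p.J) :
    RN R x i ≤ RN R x j := by
  have h1 := lev_k hP (i := i) (by omega)
  have h2 := lev_k hP hj
  have h3 := R.C.hk hij
  have h4 := lev_f hP (i := i) (by omega)
  have h5 := lev_f hP hj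
  have h6 := R.C.hf hij
  have e1 := Nat.le_of_mul_le_mul_left (by omega : R.m * kN R i ≤ R.m * kN R j) hP.m1
  have e2 := Nat.le_of_mul_le_mul_left (by omega : R.m * fN R i ≤ R.m * fN R j) hP.m1
  unfold RN
  omega

/-- **the data of the summation**, path starting at `i0` -/
theorem sdat (hP : R.Path p) (x : ℕ) {i0 n' : ℕ} (hn : i0 + n' ≤ R.n + p.J) (g : ℕ → Prop)
    (hg : ∀ i < n', g i → R.IsA (i0 + i)) :
    Sdat n' g (fun i => aN R (i0 + i)) (fun i => RN R x (i0 + i)) where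
  hr := by
    intro i hi
    show RN R x (i0 + i + 1) = RN R x (i0 + i) ∨ (RN R x (i0 + i + 1) = RN R x (i0 + i) + 1 ∧ ¬ g i)
    have hkf := kN_le_fN hP (i := i0 + i) (by omega)
    unfold RN
    rcases stepN hP (i := i0 + i) (by omega) with ⟨h1, h2, h3, h4⟩ | ⟨h1, h2, h3, h4⟩ | ⟨h1, h2, h3, h4⟩
    · left
      omega
    · have h5 : ¬ g i := fun h => h4 (hg i hi h)
      rw [h2, h3]
      rcases le_or_gt (fN R (i0 + i) + 1) (kN R (i0 + i) + x) with h6 | h6
      · right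
        exact ⟨by omega, h5⟩
      · left
        omega
    · have h5 : ¬ g i := fun h => h4 (hg i hi h)
      rw [h2, h3]
      rcases le_or_gt (kN R (i0 + i) + 1 + x) (fN R (i0 + i)) with h6 | h6
      · right
        exact ⟨by omega, h5⟩
      · left
        omega
  ha := by
    intro i hi
    show aN R (i0 + i + 1) = aN R (i0 + i) ∨ (aN R (i0 + i + 1) = aN R (i0 + i) + 1 ∧
      RN R x (i0 + i + 1) = RN R x (i0 + i))
    unfold RN
    rcases stepN hP (i := i0 + i) (by omega) with ⟨h1, h2, h3, h4⟩ | ⟨h1, h2, h3, h4⟩ | ⟨h1, h2, h3, h4⟩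
    · right
      exact ⟨h1, by rw [h2, h3]⟩
    · left; exact h1
    · left; exact h1
  ga := by
    intro i hi h
    show aN R (i0 + i + 1) = aN R (i0 + i) + 1
    have h5 := hg i hi h
    rcases stepN hP (i := i0 + i) (by omega) with ⟨h1, _⟩ | ⟨_, _, _, h4⟩ | ⟨_, _, _, h4⟩
    · exact h1
    · exact absurd h5 h4
    · exact absurd h5 h4

/-- **the relative thickness advances** when the time advances by `J` blocks -/
theorem adv (hP : R.Path p) {x : ℕ} (hx : R.m * x ≤ p.B₁) {i j : ℕ} (hij : i ≤ j) (hj : j ≤ R.n)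
    (ha : R.C.a i + p.J * R.m ≤ R.C.a j) : RN R x i + 1 ≤ RN R x j := by
  have k0 := lev_k hP (i := i) (by omega)
  have k1 := lev_k hP (i := j) (by omega)
  have f0 := lev_f hP (i := i) (by omega)
  have f1 := lev_f hP (i := j) (by omega)
  have hm := hP.m1
  have hJ := hP.J1
  have hk := hP.advK i j hij hj ha
  have hlt : i < j := by
    rcases Nat.lt_or_ge i j with h | h
    · exact h
    · have e : i = j := le_antisymm hij h
      subst e
      have h1 : 1 ≤ p.J * R.m := Nat.mul_pos hJ hm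
      omega
  have hk' : kN R i + 1 ≤ kN R j := by
    have : R.m * kN R i < R.m * kN R j := by omega
    exact Nat.lt_of_mul_lt_mul_left this
  have hfm : fN R i ≤ fN R j := by
    have := R.C.hf hij
    exact Nat.le_of_mul_le_mul_left (by omega : R.m * fN R i ≤ R.m * fN R j) hm
  rcases hP.advF i j hij hj ha with hf | hf
  · have hf' : fN R i + 1 ≤ fN R j := by
      have : R.m * fN R i < R.m * fN R j := by omega
      exact Nat.lt_of_mul_lt_mul_left this
    unfold RN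
    omega
  · -- the own slope is complete: `rk + b < rf`
    have h1 : R.C.rk i < p.QK := (hP.stop i (by omega)).2
    have h2 := hP.rK.2
    have h3 : R.m * (kN R i + x) < R.m * fN R i := by
      rw [Nat.mul_add]
      omega
    have h4 : kN R i + x < fN R i := Nat.lt_of_mul_lt_mul_left h3
    unfold RN
    omega

end

end Vale.Agent.P106.U.H833
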