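import Vale.Agent.P106.U.H833.WndT

/-!
# P106 / U / H833 : the light inequality of `mic_q` over the cells, any letter `Θ` per window (helper833)

* `light_t` : from the N-steps `SatT` of the counted steps to `Σ_CS (full - err) - c1 (k - i) - cj - Σ qc ≤ psi k - psi i`.
* `triv_t` : the trivial piece.
-/

set_option autoImplicit false

namespace Vale.Agent.P106.U.H833

open Finset Vale.Agent.P127 Vale.Agent.P127.Stk
open Vale.Agent.P106.U.Cell
open Vale.Agent.P106.U.H118 (Sdat CS full)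

section

variable {Ω τ : Type} [Fintype Ω] (P : Law Ω) (C : Pth Ω τ) {Λ ζ θ : Type}

/-- near nestedness of the cells along the path, local form -/
theorem nst_t {K : ℝ} (hK : 1 ≤ K) (hok : ∀ ω, 0 < P.w ω → C.Ok K ω) {b i j : ℕ} (hij : i ≤ j)
    (hL : C.Lev i b) : hc P (C.cell i b) (C.cell j b) ≤ cNst K := H300.n2 P C hK hok hij hL

/-- **light inequality** of a window; `Θ` determines the time digits of the later step `i'` -/
theorem light_t {K : ℝ} (hK : 1 ≤ K) (hok : ∀ ω, 0 < P.w ω → C.Ok K ω) {n i k i' b : ℕ} (hik : i ≤ k)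
    (hk : k ≤ n) (hki : k ≤ i') (hL : C.Lev i b) (l : Ω → Λ) (Z : ℕ → Ω → ζ)
    (hZ : ∀ i < n, Fn P (Z i) (Z (i + 1))) (hC : Fn P (C.cell i b) (fun ω => (l ω, Z i ω)))
    (Θ : Ω → θ) (hΘ : Fn P (tdg C i') Θ) {cA cJ : ℝ} (hcA : 0 ≤ cA)
    (hcha : ∀ j, i ≤ j → j < k → hc P (C.A j b i') (fun ω => (C.A (j + 1) b i' ω, (C.T (j + 1) ω, tdg C i' ω))) ≤ cA)
    (hju : hc P (C.A k b i') (fun ω => (tdg C i' ω, C.cell k b ω)) ≤ cJ)
    (S : Finset ℕ) (hS : S ⊆ Ico i k) (w : ℕ → ℝ) (hs : ∀ j ∈ S, SatT P C b j i' Θ (w j)) :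
    ∑ j ∈ S, w j - (cA + cNst K) * ((k : ℝ) - i) - (cJ + cNst K) - ∑ j ∈ Ico i k, qc P l Z (tdg C) j ≤
      psi P l Z (fun j => C.cell j b) k - psi P l Z (fun j => C.cell j b) i := by
  classical
  have _hcA := hcA
  have W : Wnd P n l Z (tdg C) (fun j => C.cell j b) i k (Ap C b i') Θ cA cJ
      (fun j => if j ∈ S then max (w j) 0 else 0) := by
    refine wnd_t P C hki l Z hΘ hcha hju ?_
    intro j _ _
    by_cases hj : j ∈ S
    · have h1 : w j ≤ hc P (C.A (j + 1) b i') (fun ω => (C.A j b i' ω, (C.cell (j + 1) b ω, Θ ω))) := hs j hj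
      have h2 := hc_nonneg P (C.A (j + 1) b i') (fun ω => (C.A j b i' ω, (C.cell (j + 1) b ω, Θ ω)))
      show (if j ∈ S then max (w j) 0 else 0) ≤ hc P (C.A (j + 1) b i') (fun ω => (C.A j b i' ω, (C.cell (j + 1) b ω, Θ ω)))
      rw [if_pos hj]
      exact max_le h1 h2
    · have h2 := hc_nonneg P (C.A (j + 1) b i') (fun ω => (C.A j b i' ω, (C.cell (j + 1) b ω, Θ ω)))
      show (if j ∈ S then max (w j) 0 else 0) ≤ hc P (C.A (j + 1) b i') (fun ω => (C.A j b i' ω, (C.cell (j + 1) b ω, Θ ω)))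
      rw [if_neg hj]
      exact h2
  have h := win_loc P l (C := fun j => C.cell j b) hZ (fun i _ => tdg_fn P C (Nat.le_succ i)) hik hk hC
    (fun ω ω' p p' e => tdg_T P C k ω ω' p p' (T_cell P C k b ω ω' p p' e))
    (cN := cNst K) (fun j h1 _ => nst_t P C hK hok h1 hL) W
  have h2 : ∑ j ∈ S, w j ≤ ∑ j ∈ Ico i k, (if j ∈ S then max (w j) 0 else 0) := by
    calc ∑ j ∈ S, w j ≤ ∑ j ∈ S, (if j ∈ S then max (w j) 0 else 0) :=
          Finset.sum_le_sum fun j hj => by rw [if_pos hj]; exact le_max_left _ _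
      _ ≤ ∑ j ∈ Ico i k, (if j ∈ S then max (w j) 0 else 0) :=
          Finset.sum_le_sum_of_subset_of_nonneg hS fun j _ hj => by rw [if_neg hj]
  linarith

/-- **trivial piece** -/
theorem triv_t {K : ℝ} (hK : 1 ≤ K) (hok : ∀ ω, 0 < P.w ω → C.Ok K ω) {n i k b : ℕ} (hik : i ≤ k)
    (hk : k ≤ n) (hL : C.Lev i b) (l : Ω → Λ) (Z : ℕ → Ω → ζ)
    (hZ : ∀ i < n, Fn P (Z i) (Z (i + 1))) (hC : Fn P (C.cell i b) (fun ω => (l ω, Z i ω))) :
    - cNst K - ∑ j ∈ Ico i k, qc P l Z (tdg C) j ≤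
      psi P l Z (fun j => C.cell j b) k - psi P l Z (fun j => C.cell j b) i := by
  have h := triv_loc P l (C := fun j => C.cell j b) (tm := tdg C) hZ (fun i _ => tdg_fn P C (Nat.le_succ i)) hik hk hC
    (fun ω ω' p p' e => tdg_T P C k ω ω' p p' (T_cell P C k b ω ω' p p' e))
    (cN := cNst K) (ν := fun _ => 0) (by
      have := nst_t P C hK hok hik hL
      simpa using this)
  simpa using h

end

end Vale.Agent.P106.U.H833
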