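import Vale.Agent.P106.U.H931.CollM

/-!
# P106 / U / H833 : the regimes of a path along indices, in blocks (helper833)

`R : S3.Run`, cap `x` (blocks), `f` monotone (compressed path), `f N ≤ R.n`.

* `mixed R x Wd t` : `|fN t - kN t - x| ≤ Wd`;  `isPhi` : `fN t + Wd < kN t + x`;  `isKap` : `kN t + x + Wd < fN t`.
* `reg_same` : without a mixed state between `j` and `i` the regime is the same (the path rises by at most one per step).
* `advT` : the relative thickness gains `t` blocks when the time gains `J t` blocks.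
-/

set_option autoImplicit false

namespace Vale.Agent.P106.U.H833

open Finset Vale.Agent.P127 Vale.Agent.P127.Stk
open Vale.Agent.P106.U.Cell
open Vale.Agent.P106.U.S3
open Vale.Agent.P106.U.H118 (Sdat CS mem_CS full)
open Vale.Agent.P106.U.H931 (lvi lvi_le_n lvi_le a_lvi le_lvi)

section

variable {Ω : Type} [Fintype Ω] {τ υ : Type} (R : Run Ω τ υ)

/-- near the change of the regime -/
def mixed (x Wd t : ℕ) : Prop := kN R t + x ≤ fN R t + Wd ∧ fN R t ≤ kN R t + x + Wd

/-- phi regime with a margin -/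
def isPhi (x Wd t : ℕ) : Prop := fN R t + Wd < kN R t + x

/-- kappa regime with a margin -/
def isKap (x Wd t : ℕ) : Prop := kN R t + x + Wd < fN R t

variable {R} {p : Run.Num} {x Wd : ℕ}

theorem reg_or {t : ℕ} (h : ¬ mixed R x Wd t) : isPhi R x Wd t ∨ isKap R x Wd t := by
  unfold mixed at h
  unfold isPhi isKap
  omega

theorem isPhi.not_kap {t : ℕ} (h : isPhi R x Wd t) : ¬ isKap R x Wd t := by
  unfold isPhi at h
  unfold isKap
  omega

theorem isPhi.RN {t : ℕ} (h : isPhi R x Wd t) : RN R x t = fN R t := by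
  unfold isPhi at h
  unfold H833.RN
  omega

theorem isKap.RN {t : ℕ} (h : isKap R x Wd t) : RN R x t = kN R t + x := by
  unfold isKap at h
  unfold H833.RN
  omega

theorem kN_mono (hP : R.Path p) {i j : ℕ} (hij : i ≤ j) (hj : j ≤ R.n + p.J) : kN R i ≤ kN R j := by
  have h1 := lev_k hP (i := i) (by omega)
  have h2 := lev_k hP hj
  have h3 := R.C.hk hij
  exact Nat.le_of_mul_le_mul_left (by omega : R.m * kN R i ≤ R.m * kN R j) hP.m1

theorem fN_mono (hP : R.Path p) {i j : ℕ} (hij : i ≤ j) (hj : j ≤ R.n + p.J) : fN R i ≤ fN R j := by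
  have h1 := lev_f hP (i := i) (by omega)
  have h2 := lev_f hP hj
  have h3 := R.C.hf hij
  exact Nat.le_of_mul_le_mul_left (by omega : R.m * fN R i ≤ R.m * fN R j) hP.m1

section word

variable (hP : R.Path p) {f : ℕ → ℕ} (hf : Monotone f) {N : ℕ} (hN : f N ≤ R.n) {g : ℕ → Prop}
  (D : Sdat N g (fun i => aN R (f i)) (fun i => RN R x (f i)))

include hP hf hN D

theorem phi_next (hW : 1 ≤ Wd) {t : ℕ} (ht : t < N) (h : isPhi R x Wd (f t)) (hm : ¬ mixed R x Wd (f (t + 1))) :
    isPhi R x Wd (f (t + 1)) := by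
  rcases reg_or hm with h1 | h1
  · exact h1
  · exfalso
    have e1 := h.RN
    have e2 := h1.RN
    have h3 : kN R (f t) ≤ kN R (f (t + 1)) :=
      kN_mono hP (hf (Nat.le_succ t)) ((hf (by omega : t + 1 ≤ N)).trans (by omega))
    have h4 : RN R x (f (t + 1)) = RN R x (f t) ∨ (RN R x (f (t + 1)) = RN R x (f t) + 1 ∧ ¬ g t) := D.hr t ht
    unfold isPhi at h
    unfold isKap at h1
    rcases h4 with h4 | ⟨h4, _⟩ <;> omega

theorem kap_next (hW : 1 ≤ Wd) {t : ℕ} (ht : t < N) (h : isKap R x Wd (f t)) (hm : ¬ mixed R x Wd (f (t + 1))) :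
    isKap R x Wd (f (t + 1)) := by
  rcases reg_or hm with h1 | h1
  · exfalso
    have e1 := h.RN
    have e2 := h1.RN
    have h3 : fN R (f t) ≤ fN R (f (t + 1)) :=
      fN_mono hP (hf (Nat.le_succ t)) ((hf (by omega : t + 1 ≤ N)).trans (by omega))
    have h4 : RN R x (f (t + 1)) = RN R x (f t) ∨ (RN R x (f (t + 1)) = RN R x (f t) + 1 ∧ ¬ g t) := D.hr t ht
    unfold isPhi at h1
    unfold isKap at h
    rcases h4 with h4 | ⟨h4, _⟩ <;> omega
  · exact h1

/-- **the regime does not change** without a mixed state -/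
theorem phi_same (hW : 1 ≤ Wd) {j i : ℕ} (hji : j ≤ i) (hi : i ≤ N) (h : isPhi R x Wd (f j))
    (hm : ∀ t, j ≤ t → t ≤ i → ¬ mixed R x Wd (f t)) : isPhi R x Wd (f i) := by
  induction i, hji using Nat.le_induction with
  | base => exact h
  | succ i hji ih =>
    exact phi_next hP hf hN D hW (by omega) (ih (by omega) fun t h1 h2 => hm t h1 (by omega)) (hm _ (by omega) le_rfl)

theorem kap_same (hW : 1 ≤ Wd) {j i : ℕ} (hji : j ≤ i) (hi : i ≤ N) (h : isKap R x Wd (f j))
    (hm : ∀ t, j ≤ t → t ≤ i → ¬ mixed R x Wd (f t)) : isKap R x Wd (f i) := by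
  induction i, hji using Nat.le_induction with
  | base => exact h
  | succ i hji ih =>
    exact kap_next hP hf hN D hW (by omega) (ih (by omega) fun t h1 h2 => hm t h1 (by omega)) (hm _ (by omega) le_rfl)

/-- **gain of the thickness** -/
theorem advT (hx : R.m * x ≤ p.B₁) : ∀ t j i, j ≤ i → i ≤ N → aN R (f j) + p.J * t ≤ aN R (f i) →
    RN R x (f j) + t ≤ RN R x (f i) := by
  intro t
  induction t with
  | zero =>
    intro j i hji hi _
    have := RN_mono hP x (hf hji) ((hf hi).trans (by omega))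
    omega
  | succ t ih =>
    intro j i hji hi ha
    have e1 : p.J * (t + 1) = p.J * t + p.J := by ring
    have a0 : aN R (f 0) ≤ aN R (f j) := aN_mono hP (hf (Nat.zero_le j)) ((hf (hji.trans hi)).trans (by omega))
    -- the index of the level `a j + J t`
    set v := aN R (f j) + p.J * t with hv
    have e2 : aN R (f (lvi N (fun i => aN R (f i)) v)) = v :=
      a_lvi D (i1 := i) (show aN R (f 0) ≤ v by omega) hi (show v ≤ aN R (f i) by omega)
    have h1 : lvi N (fun i => aN R (f i)) v ≤ i := lvi_le hi (show v ≤ aN R (f i) by omega)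
    have h2 : j ≤ lvi N (fun i => aN R (f i)) v ∨ aN R (f j) = v := by
      by_cases h3 : aN R (f j) < v
      · exact Or.inl (le_lvi D (by omega) (Or.inl h3))
      · exact Or.inr (by omega)
    have key : ∀ y, j ≤ y → y ≤ i → aN R (f y) = v → RN R x (f j) + (t + 1) ≤ RN R x (f i) := by
      intro y hy1 hy2 hy3
      have h4 := ih j y hy1 (by omega) (by omega)
      have a1 := lev_a hP (i := f y) ((hf (hy2.trans hi)).trans (by omega))
      have a2 := lev_a hP (i := f i) ((hf hi).trans (by omega))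
      have h5 := adv hP hx (hf hy2) ((hf hi).trans hN) (by
        rw [a1, a2, Nat.mul_comm p.J, ← Nat.mul_add]
        exact Nat.mul_le_mul_left _ (by omega))
      omega
    rcases h2 with h2 | h2
    · exact key _ h2 h1 e2
    · exact key j le_rfl hji h2

/-- an index with a given time level -/
theorem ex_lev {j i v : ℕ} (hji : j ≤ i) (hi : i ≤ N) (h1 : aN R (f j) ≤ v) (h2 : v ≤ aN R (f i)) :
    ∃ y, j ≤ y ∧ y ≤ i ∧ aN R (f y) = v := by
  by_cases h3 : aN R (f j) = v
  · exact ⟨j, le_rfl, hji, h3⟩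
  · have a0 : aN R (f 0) ≤ aN R (f j) := aN_mono hP (hf (Nat.zero_le j)) ((hf (hji.trans hi)).trans (by omega))
    exact ⟨lvi N (fun i => aN R (f i)) v, le_lvi D (by omega) (Or.inl (show aN R (f j) < v by omega)), lvi_le hi h2,
      a_lvi D (i1 := i) (show aN R (f 0) ≤ v by omega) hi h2⟩

end word

end

end Vale.Agent.P106.U.H833
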