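import Vale.Agent.P106.U.H833.LigT
import Vale.Agent.P106.U.H84.ChaT

/-!
# P106 / U / H833 : `light_t` with helper84's chain and junction (helper833)

* `cCh K` = constant of the chain, `cJu μ` = constant of the junction.
* `light_c` : `Σ_S w − (cCh K + cNst K)(k − i) − (cJu μ + cNst K) − Σ qc ≤ psi k − psi i` from the N-steps `SatT` on `S ⊆ Ico i k`.
-/

set_option autoImplicit false

namespace Vale.Agent.P106.U.H833

open Finset Vale.Agent.P127 Vale.Agent.P127.Stk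
open Vale.Agent.P106.U.Cell

/-- constant of the chain -/
noncomputable def cCh (K : ℝ) : ℝ := 2 * Real.log ((2 * ⌈118 * K ^ 5⌉₊ + 3 : ℕ) : ℝ)

/-- constant of the junction -/
noncomputable def cJu (μ : ℕ) : ℝ := 15 * μ * Real.log 2 + Real.log 18865

theorem cCh_nonneg (K : ℝ) : 0 ≤ cCh K := by
  unfold cCh
  have : (1 : ℝ) ≤ ((2 * ⌈118 * K ^ 5⌉₊ + 3 : ℕ) : ℝ) := by
    push_cast
    have : (0 : ℝ) ≤ (⌈118 * K ^ 5⌉₊ : ℝ) := Nat.cast_nonneg _
    linarith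
  have := Real.log_nonneg this
  positivity

theorem cJu_nonneg (μ : ℕ) : 0 ≤ cJu μ := by
  unfold cJu
  have h1 := Real.log_nonneg (show (1 : ℝ) ≤ 2 by norm_num)
  have h2 := Real.log_nonneg (show (1 : ℝ) ≤ 18865 by norm_num)
  positivity

section

variable {Ω τ : Type} [Fintype Ω] (P : Law Ω) (C : Pth Ω τ) {Λ ζ θ : Type}

/-- **light inequality**, constants plugged in -/
theorem light_c {K : ℝ} (hK : 1 ≤ K) (hok : ∀ ω, 0 < P.w ω → C.Ok K ω) {n i k i' b : ℕ} (hik : i ≤ k)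
    (hk : k ≤ n) (hki : k ≤ i') (hL : C.Lev i b) (l : Ω → Λ) (Z : ℕ → Ω → ζ)
    (hZ : ∀ i < n, Fn P (Z i) (Z (i + 1))) (hC : Fn P (C.cell i b) (fun ω => (l ω, Z i ω)))
    (Θ : Ω → θ) (hΘ : Fn P (tdg C i') Θ)
    (S : Finset ℕ) (hS : S ⊆ Ico i k) (w : ℕ → ℝ) (hs : ∀ j ∈ S, SatT P C b j i' Θ (w j)) :
    ∑ j ∈ S, w j - (cCh K + cNst K) * ((k : ℝ) - i) - (cJu C.μ + cNst K) - ∑ j ∈ Ico i k, qc P l Z (tdg C) j ≤
      psi P l Z (fun j => C.cell j b) k - psi P l Z (fun j => C.cell j b) i := by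
  refine light_t P C hK hok hik hk hki hL l Z hZ hC Θ hΘ (cCh_nonneg K) ?_ ?_ S hS w hs
  · intro j h1 h2
    exact H84.cha_t P hK hok (by omega) (H300.Lev_mono C h1 hL)
  · exact H84.ju_t P hki (H300.Lev_mono C hik hL)

end

end Vale.Agent.P106.U.H833
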