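import Vale.Agent.P106.U.H833.NStep
import Vale.Agent.P106.U.H833.LigC
import Vale.Agent.P106.U.H118.HeavyRun

/-!
# P106 / U / H833 : the light inequality over a run for the windows all of whose levels are old (helper833), row [LO]

`f` monotone, `f N ≤ R.n`, levels `a j = aN R (f j)`, `r j = RN R x (f j)`, cap `b = m x`.

* `lx N a Kr k` : later index of the window which ends at `k` : the a-step of the level `a k + Kr`.
* `pu z` : pure level (old, not exceptional);  `AdmO` : the pair `(j, k)` comes from a window with pure levels `[a j, a k + Lk]`.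
* `I1O`, `I2O` : the two informations of an admissible pair (0 otherwise).
* `errO` : error of the step = 652's `err1` with `coll j = 2 e1 + 2 w j`.
* **`win_old`** : the inequality of `mic_q`.
-/

set_option autoImplicit false

namespace Vale.Agent.P106.U.H833

open Finset Vale.Agent.P127 Vale.Agent.P127.Stk
open Vale.Agent.P106.U.Cell
open Vale.Agent.P106.U.S3
open Vale.Agent.P106.U.H118 (Sdat CS mem_CS full Zw)
open Vale.Agent.P106.U.H931 (Nq nx XN lvi)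

/-- later index of the window which ends at `k` -/
noncomputable def lx (N : ℕ) (a : ℕ → ℕ) (Kr k : ℕ) : ℕ := nx N a (lvi N a (a k + Kr))

theorem lx_spec {N : ℕ} {g : ℕ → Prop} {a r : ℕ → ℕ} (D : Sdat N g a r) {Kr k i1 : ℕ} (h1 : i1 ≤ N) (hk1 : k ≤ i1)
    (hKr : 0 < Kr) (h2 : a k + Kr + 1 ≤ a i1) :
    k < lx N a Kr k ∧ lx N a Kr k < i1 ∧ a (lx N a Kr k) = a k + Kr ∧ a (lx N a Kr k + 1) = a k + Kr + 1 := by
  have hk : k ≤ N := hk1.trans h1
  have h0 := D.am (Nat.zero_le k) hk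
  have e1 : a (lvi N a (a k + Kr)) = a k + Kr := H931.a_lvi D (by omega) h1 (by omega)
  have e2 : k ≤ lvi N a (a k + Kr) := H931.le_lvi D hk (Or.inl (by omega))
  have e3 : lvi N a (a k + Kr) ≤ N := H931.lvi_le_n N a _
  have e4 : k ≠ lvi N a (a k + Kr) := fun e => by
    rw [← e] at e1
    omega
  have e5 : lvi N a (a k + Kr) ≤ nx N a (lvi N a (a k + Kr)) := H931.le_nx e3
  have e6 : a (nx N a (lvi N a (a k + Kr))) = a (lvi N a (a k + Kr)) := H931.nx_const D e5 le_rfl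
  have e7 : nx N a (lvi N a (a k + Kr)) < i1 := by
    by_contra h3
    push Not at h3
    have := D.am h3 (H931.nx_le N a _)
    omega
  have e8 := H931.nx_spec (n := N) (a := a) (j := lvi N a (a k + Kr)) (by omega)
  unfold lx
  refine ⟨by omega, e7, by omega, by omega⟩

section

variable {Ω : Type} [Fintype Ω] {τ υ : Type} {R : Run Ω τ υ} {p : Run.Num} {K c' g' gU : ℝ}

/-- admissible pairs: step `j`, end `k` of a window of length `L1`, later index `i1 ≤ j + L2`, all levels of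
`[a j, a k + Lk]` are pure (`pu`) -/
def AdmO (N : ℕ) (a : ℕ → ℕ) (pu : ℕ → Prop) (L1 L2 Kr Lk j k : ℕ) : Prop :=
  j < k ∧ k ≤ j + L1 ∧ (∃ i1, k ≤ i1 ∧ i1 ≤ N ∧ i1 ≤ j + L2 ∧ a k + Lk + 1 ≤ a i1) ∧ ∀ z, a j ≤ z → z ≤ a k + Lk → pu z

open Classical in
/-- first information of an admissible pair -/
noncomputable def I1O (P : Law Ω) (C : Pth Ω τ) (b pv N : ℕ) (a : ℕ → ℕ) (pu : ℕ → Prop) (L1 L2 Kr Lk j k : ℕ) : ℝ :=
  if AdmO N a pu L1 L2 Kr Lk j k then I1N P C b pv j (lx N a Kr k) else 0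

open Classical in
/-- second information of an admissible pair -/
noncomputable def I2O (P : Law Ω) (C : Pth Ω τ) (b b' N : ℕ) (a : ℕ → ℕ) (pu : ℕ → Prop) (L1 L2 Kr Lk j k : ℕ) : ℝ :=
  if AdmO N a pu L1 L2 Kr Lk j k then I2N P C b b' j (lx N a Kr k) else 0

theorem I1O_nonneg (P : Law Ω) (C : Pth Ω τ) (b pv N : ℕ) (a : ℕ → ℕ) (pu : ℕ → Prop) (L1 L2 Kr Lk j k : ℕ) :
    0 ≤ I1O P C b pv N a pu L1 L2 Kr Lk j k := by
  classical
  unfold I1O I1N
  split_ifs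
  · exact mi_nonneg P _ _ _
  · exact le_rfl

theorem I2O_nonneg (P : Law Ω) (C : Pth Ω τ) (b b' N : ℕ) (a : ℕ → ℕ) (pu : ℕ → Prop) (L1 L2 Kr Lk j k : ℕ) :
    0 ≤ I2O P C b b' N a pu L1 L2 Kr Lk j k := by
  classical
  unfold I2O I2N
  split_ifs
  · exact mi_nonneg P _ _ _
  · exact le_rfl

/-- error of a step (652's `err1`) -/
noncomputable def errO (c1 c2 m A x : ℝ) (L : ℕ) (coll : ℕ → ℝ) (I1 I2 : ℕ → ℕ → ℝ) (X : Finset ℕ) (j : ℕ) : ℝ :=
  c1 + c2 * m * coll j + A * ∑ k ∈ Ioc j (j + L), (Real.sqrt (I1 j k) + Real.sqrt (I2 j k)) +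
    x * m * (if j ∈ X then 1 else 0)

theorem errO_nonneg {c1 c2 m A x : ℝ} (h1 : 0 ≤ c1) (h2 : 0 ≤ c2) (hm : 0 ≤ m) (hA : 0 ≤ A) (hx : 0 ≤ x) {L : ℕ}
    {coll : ℕ → ℝ} (hc : ∀ j, 0 ≤ coll j) {I1 I2 : ℕ → ℕ → ℝ} {X : Finset ℕ} (j : ℕ) :
    0 ≤ errO c1 c2 m A x L coll I1 I2 X j := by
  unfold errO
  have e1 : 0 ≤ ∑ k ∈ Ioc j (j + L), (Real.sqrt (I1 j k) + Real.sqrt (I2 j k)) :=
    Finset.sum_nonneg fun _ _ => by positivity
  have e2 : (0 : ℝ) ≤ if j ∈ X then 1 else 0 := by split_ifs <;> norm_num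
  have := hc j
  positivity

theorem lev_0 (h : R.Ok p K c' g' gU) {f : ℕ → ℕ} (hf : Monotone f) {N x : ℕ} (hN : f N ≤ R.n) (hx : 8 * R.C.μ ≤ R.m * x)
    (hr : 8 * R.C.μ ≤ R.r0) {i : ℕ} (hi : i ≤ N) : (R.C.re f hf).Lev i (R.m * x) := by
  refine ⟨hx, ?_⟩
  obtain ⟨_, _, _, e⟩ := lv_of h.pth x hf (t := i) ((hf hi).trans (by omega))
  rw [e]
  show 8 * R.C.μ ≤ _
  omega

/-- **[LO]** the light inequality for a window all of whose levels are pure -/
theorem win_old (h : R.Ok p K c' g' gU) {f : ℕ → ℕ} (hf : Monotone f) {N : ℕ} (hN : f N ≤ R.n) {cφ cc : ℕ} (hΦ : PhiC cφ)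
    (hcφ : cφ ≤ cc) {x M s c0 g pv b' Mu Wd Kr Lb : ℕ} (H : NumN R p K cc x M s c0 g pv b' Mu Wd Kr Lb) {ε : ℝ} {b0 : ℕ}
    {γ : ℕ → Prop} (hγ : ∀ j, γ j → R.Good p ε b0 (f j))
    (D : Sdat N γ (fun i => aN R (f i)) (fun i => RN R x (f i))) {E : Finset ℕ}
    (hE : ∀ i < N, aN R (f (i + 1)) = aN R (f i) + 1 → ¬ γ i → i ∈ E) {L1 L2 Lk : ℕ} (hKr : 0 < Kr) (hLb : L1 + Kr ≤ Lb)
    (hLk : Kr ≤ Lk) (pu : ℕ → Prop) (hpu : ∀ t ≤ N, pu (aN R (f t)) → ¬ mixed R x Wd (f t))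
    (hbW : ∀ t ≤ N, pu (aN R (f t)) → isKap R x Wd (f t) → R.C.rk (f t) + b' ≤ R.C.rf (f t)) {e1 : ℝ} {w : ℕ → ℝ} {K' : ℕ}
    (Co : ∀ j k, j ∉ XN M N (fun i => aN R (f i)) (fun i => RN R x (f i)) E →
      j ∈ CS M N γ (fun i => aN R (f i)) (fun i => RN R x (f i)) 0 N →
      AdmO N (fun i => aN R (f i)) pu L1 L2 Kr Lk j k →
      ColN R p K ε hf x M s N g Wd j (lx N (fun i => aN R (f i)) Kr k) e1 (w j) K')
    (he1 : 0 ≤ e1) (hw : ∀ j, 0 ≤ w j)
    {i k i1 : ℕ} (hik : i ≤ k) (hkL : k ≤ i + L1) (hki1 : k ≤ i1) (hi1 : i1 ≤ N) (hi2 : i1 ≤ i + L2)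
    (hKK : aN R (f k) + Lk + 1 ≤ aN R (f i1)) (hpure : ∀ z, aN R (f i) ≤ z → z ≤ aN R (f k) + Lk → pu z) :
    ∑ j ∈ CS M N γ (fun i => aN R (f i)) (fun i => RN R x (f i)) i k,
        (full (R.m * Real.log 2) (fun i => aN R (f i)) (fun i => RN R x (f i)) j -
          errO (cc * (c0 + 1)) cc R.m (2 ^ (cc * (g + c0 + 1))) 3 L1 (fun j => 2 * e1 + 2 * w j)
            (I1O R.Q (R.C.re f hf) (R.m * x) pv N (fun i => aN R (f i)) pu L1 L2 Kr Lk)
            (I2O R.Q (R.C.re f hf) (R.m * x) b' N (fun i => aN R (f i)) pu L1 L2 Kr Lk)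
            (XN M N (fun i => aN R (f i)) (fun i => RN R x (f i)) E) j) -
        (cCh K + cNst K) * ((k : ℝ) - i) - (cJu R.C.μ + cNst K) -
        ∑ j ∈ Ico i k, qc R.Q R.ry (fun j => Zw R (f j)) (tdg (R.C.re f hf)) j ≤
      psi R.Q R.ry (fun j => Zw R (f j)) (fun j => (R.C.re f hf).cell j (R.m * x)) k -
        psi R.Q R.ry (fun j => Zw R (f j)) (fun j => (R.C.re f hf).cell j (R.m * x)) i := by
  classical
  have hP := h.pth
  set a : ℕ → ℕ := fun i => aN R (f i) with ha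
  set r : ℕ → ℕ := fun i => RN R x (f i) with hr
  set C := R.C.re f hf with hC
  have hm1 : (1 : ℝ) ≤ R.m := by exact_mod_cast hP.m1
  have hl0 : 0 ≤ Real.log 2 := Real.log_nonneg (by norm_num)
  have hl1 : Real.log 2 ≤ 1 := by
    have := Real.log_two_lt_d9
    linarith
  obtain ⟨q1, q2, q3, q4⟩ := lx_spec D hi1 hki1 hKr (show a k + Kr + 1 ≤ a i1 by
    have h9 : a k + Lk + 1 ≤ a i1 := hKK
    omega)
  have hMux : R.m * Mu ≤ R.m * x := Nat.mul_le_mul_left _ H.Mux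
  have hlev : C.Lev i (R.m * x) := lev_0 h hf hN (by have := H.Mu8; omega) H.r0 (by omega)
  refine light_c R.Q C H.K1 (fun ω hω => Pth.re_ok f hf (h.ok ω hω)) hik (by omega : k ≤ N) q1.le hlev R.ry
    (fun j => Zw R (f j)) ?_ ?_ (MIC.Th C (R.m * x) (lx N a Kr k)) ?_ (CS M N γ a r i k) ?_ _ ?_
  · -- the letters
    intro j hj ω ω' h1 h2 e
    have e1 := h.Um (f j) (f (j + 1)) (hf (Nat.le_succ j)) ω ω' h1 h2 (congrArg Prod.fst e)
    have e2 := R.C.T_anti' (hf (Nat.le_succ j)) (congrArg Prod.snd e)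
    exact Prod.ext e1 e2
  · -- the cell
    intro ω ω' h1 h2 e
    simp only [Prod.mk.injEq] at e
    refine h.cell_of (R.m * x) ((hf (show i ≤ N by omega)).trans (by omega)) ω ω' h1 h2 ?_
    simp only [Prod.mk.injEq]
    exact ⟨congrArg Prod.snd e.2, congrArg Prod.fst e.2⟩
  · intro ω ω' h1 h2 e
    exact tdg_T R.Q C (lx N a Kr k) ω ω' h1 h2 (congrArg Prod.fst e)
  · intro j hj
    rw [Finset.mem_Ico]
    exact (mem_CS.1 hj).1
  · intro j hj
    obtain ⟨⟨j1, j2⟩, j3⟩ := mem_CS.1 hj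
    have hj0 : j ∈ CS M N γ a r 0 N := mem_CS.2 ⟨⟨Nat.zero_le _, by omega⟩, j3⟩
    by_cases hX : j ∈ XN M N a r E
    · -- an exceptional step
      refine le_trans ?_ (hc_nonneg R.Q _ _)
      have h1 := H118.full_le (m := R.m * Real.log 2) (by positivity) D (j := j) (by omega)
      have h2 : 3 * (R.m : ℝ) ≤ errO (cc * (c0 + 1)) cc R.m (2 ^ (cc * (g + c0 + 1))) 3 L1 (fun j => 2 * e1 + 2 * w j)
            (I1O R.Q C (R.m * x) pv N a pu L1 L2 Kr Lk) (I2O R.Q C (R.m * x) b' N a pu L1 L2 Kr Lk) (XN M N a r E) j := by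
        unfold errO
        rw [if_pos hX]
        have e3 : 0 ≤ ∑ k ∈ Ioc j (j + L1), (Real.sqrt (I1O R.Q C (R.m * x) pv N a pu L1 L2 Kr Lk j k) +
            Real.sqrt (I2O R.Q C (R.m * x) b' N a pu L1 L2 Kr Lk j k)) := Finset.sum_nonneg fun _ _ => by positivity
        have e4 := hw j
        have e5 : (0 : ℝ) ≤ cc * (c0 + 1) := by positivity
        have e6 : (0 : ℝ) ≤ cc * R.m * (2 * e1 + 2 * w j) := by positivity
        have e7 : (0 : ℝ) ≤ 2 ^ (cc * (g + c0 + 1)) * ∑ k ∈ Ioc j (j + L1),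
            (Real.sqrt (I1O R.Q C (R.m * x) pv N a pu L1 L2 Kr Lk j k) +
              Real.sqrt (I2O R.Q C (R.m * x) b' N a pu L1 L2 Kr Lk j k)) := by positivity
        linarith
      have h3 : 3 * ((R.m : ℝ) * Real.log 2) ≤ 3 * R.m := by nlinarith
      linarith
    · have hadm : AdmO N a pu L1 L2 Kr Lk j k := ⟨j2, by omega, ⟨i1, hki1, hi1, by omega, hKK⟩, fun z z1 z2 =>
        hpure z ((D.am j1 (by omega)).trans z1) z2⟩
      have hco := Co j k hX hj0 hadm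
      have hjk : a (j + 1) ≤ a k := D.am (by omega) (by omega)
      have hkL' : a k ≤ a j + L1 := by
        have := D.al (i := j) (j := k) (by omega) (by omega)
        omega
      have hpr : PairN R x N f Wd Kr Lb j (lx N a Kr k) := by
        refine ⟨by omega, by omega, ?_, ?_, ?_⟩
        · show a (j + 1) + Kr ≤ a (lx N a Kr k)
          omega
        · show a (lx N a Kr k) ≤ a j + Lb
          omega
        · intro t t1 t2
          refine hpu t (by omega) (hpure _ ?_ ?_)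
          · exact D.am (i := i) (j := t) (by omega) (by omega)
          · have h5 : a t ≤ a (lx N a Kr k) := D.am (i := t) (j := lx N a Kr k) t2 (by omega)
            show a t ≤ a k + Lk
            omega
      have hs := nstep hf h hN hΦ hcφ H hγ D hE (by omega : k ≤ N) hj hX hpr
        (fun t t1 t2 => hbW t (by omega) (hpure _ (D.am (i := i) (j := t) (by omega) (by omega)) (by
          have h5 : a t ≤ a k := D.am (i := t) (j := k) (by omega) (by omega)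
          show a t ≤ a k + Lk
          omega))) hco
      refine le_trans ?_ hs
      have h4 : errN R hf cc c0 g x pv b' j (lx N a Kr k) e1 (w j) ≤
          errO (cc * (c0 + 1)) cc R.m (2 ^ (cc * (g + c0 + 1))) 3 L1 (fun j => 2 * e1 + 2 * w j)
            (I1O R.Q C (R.m * x) pv N a pu L1 L2 Kr Lk) (I2O R.Q C (R.m * x) b' N a pu L1 L2 Kr Lk) (XN M N a r E) j := by
        unfold errO errN
        rw [if_neg hX, ← hC]
        have e3 : Real.sqrt (I1N R.Q C (R.m * x) pv j (lx N a Kr k)) + Real.sqrt (I2N R.Q C (R.m * x) b' j (lx N a Kr k)) ≤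
            ∑ k ∈ Ioc j (j + L1), (Real.sqrt (I1O R.Q C (R.m * x) pv N a pu L1 L2 Kr Lk j k) +
              Real.sqrt (I2O R.Q C (R.m * x) b' N a pu L1 L2 Kr Lk j k)) := by
          have e4 : k ∈ Ioc j (j + L1) := Finset.mem_Ioc.2 ⟨j2, by omega⟩
          have e5 := Finset.single_le_sum (f := fun k => Real.sqrt (I1O R.Q C (R.m * x) pv N a pu L1 L2 Kr Lk j k) +
            Real.sqrt (I2O R.Q C (R.m * x) b' N a pu L1 L2 Kr Lk j k)) (fun y _ => by positivity) e4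
          refine le_trans (le_of_eq ?_) e5
          simp only [I1O, I2O, if_pos hadm]
        have e6 : (2 : ℝ) ^ (cc * (g + c0 + 1)) * (Real.sqrt (I1N R.Q C (R.m * x) pv j (lx N a Kr k)) +
            Real.sqrt (I2N R.Q C (R.m * x) b' j (lx N a Kr k))) ≤ 2 ^ (cc * (g + c0 + 1)) *
            ∑ k ∈ Ioc j (j + L1), (Real.sqrt (I1O R.Q C (R.m * x) pv N a pu L1 L2 Kr Lk j k) +
              Real.sqrt (I2O R.Q C (R.m * x) b' N a pu L1 L2 Kr Lk j k)) := mul_le_mul_of_nonneg_left e3 (by positivity)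
        linarith
      linarith

/-- **[LO] in the form of `MIC.scaleOk_of`** (kind 0): all windows of the scale -/
theorem win_old_all (h : R.Ok p K c' g' gU) {f : ℕ → ℕ} (hf : Monotone f) {N : ℕ} (hN : f N ≤ R.n) {cφ cc : ℕ} (hΦ : PhiC cφ)
    (hcφ : cφ ≤ cc) {x M s c0 g pv b' Mu Wd Kr Lb : ℕ} (H : NumN R p K cc x M s c0 g pv b' Mu Wd Kr Lb) {ε : ℝ} {b0 : ℕ}
    {γ : ℕ → Prop} (hγ : ∀ j, γ j → R.Good p ε b0 (f j))
    (D : Sdat N γ (fun i => aN R (f i)) (fun i => RN R x (f i))) {E : Finset ℕ}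
    (hE : ∀ i < N, aN R (f (i + 1)) = aN R (f i) + 1 → ¬ γ i → i ∈ E) {L1 L2 KK Lk : ℕ} (hKr : 0 < Kr) (hLb : L1 + Kr ≤ Lb)
    (hLk : Kr ≤ Lk) (hKK : Lk + 1 ≤ KK) (pu : ℕ → Prop) (hpu : ∀ t ≤ N, pu (aN R (f t)) → ¬ mixed R x Wd (f t))
    (hbW : ∀ t ≤ N, pu (aN R (f t)) → isKap R x Wd (f t) → R.C.rk (f t) + b' ≤ R.C.rf (f t)) {e1 : ℝ}
    {w : ℕ → ℝ} {K' : ℕ}
    (Co : ∀ j k, j ∉ XN M N (fun i => aN R (f i)) (fun i => RN R x (f i)) E →
      j ∈ CS M N γ (fun i => aN R (f i)) (fun i => RN R x (f i)) 0 N →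
      AdmO N (fun i => aN R (f i)) pu L1 L2 Kr Lk j k →
      ColN R p K ε hf x M s N g Wd j (lx N (fun i => aN R (f i)) Kr k) e1 (w j) K')
    (he1 : 0 ≤ e1) (hw : ∀ j, 0 ≤ w j) {c1 cj : ℝ} (hc1 : cCh K + cNst K ≤ c1) (hcj : cJu R.C.μ + cNst K ≤ cj)
    {xo : ℕ → ℝ} (hxo : ∀ j, 0 ≤ xo j) :
    ∀ i k i1, i ≤ k → k ≤ i + L1 → k ≤ i1 → i1 ≤ N → i1 ≤ i + L2 → aN R (f k) + KK ≤ aN R (f i1) →
      RN R x (f k) + KK ≤ RN R x (f i1) → (∀ z, aN R (f i) ≤ z → z ≤ aN R (f k) + Lk → pu z) →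
      ∑ j ∈ CS M N γ (fun i => aN R (f i)) (fun i => RN R x (f i)) i k,
          (full (R.m * Real.log 2) (fun i => aN R (f i)) (fun i => RN R x (f i)) j -
            errO (cc * (c0 + 1)) cc R.m (2 ^ (cc * (g + c0 + 1))) 3 L1 (fun j => 2 * e1 + 2 * w j)
              (I1O R.Q (R.C.re f hf) (R.m * x) pv N (fun i => aN R (f i)) pu L1 L2 Kr Lk)
              (I2O R.Q (R.C.re f hf) (R.m * x) b' N (fun i => aN R (f i)) pu L1 L2 Kr Lk)
              (XN M N (fun i => aN R (f i)) (fun i => RN R x (f i)) E) j) -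
          c1 * ((k : ℝ) - i) - cj -
          ∑ j ∈ Ico i k, (qc R.Q R.ry (fun j => Zw R (f j)) (tdg (R.C.re f hf)) j + xo j) ≤
        psi R.Q R.ry (fun j => Zw R (f j)) (fun j => (R.C.re f hf).cell j (R.m * x)) k -
          psi R.Q R.ry (fun j => Zw R (f j)) (fun j => (R.C.re f hf).cell j (R.m * x)) i := by
  intro i k i1 hik hkL hki1 hi1 hi2 hak _ hpure
  have h1 := win_old h hf hN hΦ hcφ H hγ D hE hKr hLb hLk pu hpu hbW Co he1 hw hik hkL hki1 hi1 hi2 (by omega) hpure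
  have h2 : (cCh K + cNst K) * ((k : ℝ) - i) ≤ c1 * ((k : ℝ) - i) := by
    have : (i : ℝ) ≤ k := by exact_mod_cast hik
    exact mul_le_mul_of_nonneg_right hc1 (by linarith)
  have h3 : ∑ j ∈ Ico i k, qc R.Q R.ry (fun j => Zw R (f j)) (tdg (R.C.re f hf)) j ≤
      ∑ j ∈ Ico i k, (qc R.Q R.ry (fun j => Zw R (f j)) (tdg (R.C.re f hf)) j + xo j) :=
    Finset.sum_le_sum fun j _ => by
      have := hxo j
      linarith
  linarith

end

end Vale.Agent.P106.U.H833
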