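import Vale.Agent.P106.U.H833.WinS
import Vale.Agent.P106.U.H404.Word

/-!
# P106 / U / H833 : row [LO] over the record (helper833)

`H : RunOk ..`, margin `μ ≤ R.C.μ`, offsets `o`, start `i0`, word `hw : WordOk ..` with the good states `gdR R pn eg i0`.

* `lo_rec` : input `h02` (kind 0) of `MIC.scaleOk_of` for the potential over the cells `(lc R.C μ o).cell`.
* `co_rec` : it is enough to bound the collisions over `low R μ o`.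
-/

set_option autoImplicit false

namespace Vale.Agent.P106.U.H833

open Finset Vale.Agent.P127 Vale.Agent.P127.Stk Vale.Agent.P127.U Vale.Agent.P106.W Vale.Agent.P106.K
open Vale.Agent.P106.U.Cell
open Vale.Agent.P106.U.S3 (Run)
open Vale.Agent.P106.U.S5
open Vale.Agent.P106.U.MIC
open Vale.Agent.P106.U.H118 (Sdat CS mem_CS full Zw)
open Vale.Agent.P106.U.H931 (Nq nx XN lvi)
open Vale.Agent.P106.U.H101 (lc low)
open Vale.Agent.P106.U.H823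

section

variable {σ : Cst} {ε : ℝ} {ρ : Thr} {m B : ℕ} {Ω : Type} [Fintype Ω] {Q : Law Ω} {l : Ω → Ry} {t : Ω → ℝ}
  {L h q r0 Rn : ℕ} {W : Ω → Cbx} {τ υ : Type} {R : Run Ω τ υ} {pn : Run.Num} {g' gU e κ₀ : ℝ} {a1 r1 : ℕ}

theorem ix_le (R : Run Ω τ υ) (i0 j : ℕ) : ix R i0 j ≤ R.n := Cmp.idx_le _

/-- **[LO] over the record** : input `h02` (kind 0) of `MIC.scaleOk_of` -/
theorem lo_rec (H : RunOk σ ε ρ m B Q l t L h q r0 Rn W R pn g' gU e κ₀ a1 r1) {μ : ℕ} (hμ : μ ≤ R.C.μ) (o : Fin 7 → ℝ)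
    {i0 : ℕ} {Kw ew mm eg : ℝ} {J0 : ℕ} {E : Finset ℕ}
    (hw : WordOk Kw ew h mm J0 (nz R i0) (gdR R pn eg i0) (az R i0) (rz R i0) E) {cφ cc : ℕ} (hΦ : PhiC cφ) (hcφ : cφ ≤ cc)
    {M s c0 g pv b' Mu Wd Kr Lb : ℕ} (Hn : NumN (low R μ o) pn ρ.K cc R.b1 M s c0 g pv b' Mu Wd Kr Lb)
    {L1 L2 KK Lk : ℕ} (hKr : 0 < Kr) (hLb : L1 + Kr ≤ Lb) (hLk : Kr ≤ Lk) (hKK : Lk + 1 ≤ KK) (pu : ℕ → Prop)
    (hpu : ∀ t ≤ nz R i0, pu (az R i0 t) → ¬ mixed R R.b1 Wd (ix R i0 t))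
    (hbW : ∀ t ≤ nz R i0, pu (az R i0 t) → isKap R R.b1 Wd (ix R i0 t) → R.C.rk (ix R i0 t) + b' ≤ R.C.rf (ix R i0 t)) {e1 : ℝ} {w : ℕ → ℝ} {K' : ℕ}
    (Co : ∀ j k, j ∉ XN M (nz R i0) (az R i0) (rz R i0) E →
      j ∈ CS M (nz R i0) (gdR R pn eg i0) (az R i0) (rz R i0) 0 (nz R i0) →
      AdmO (nz R i0) (az R i0) pu L1 L2 Kr Lk j k →
      ColN (low R μ o) pn ρ.K eg (ix_mono R i0) R.b1 M s (nz R i0) g Wd j (lx (nz R i0) (az R i0) Kr k) e1 (w j) K')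
    (he1 : 0 ≤ e1) (hw0 : ∀ j, 0 ≤ w j) {c1 cj : ℝ} (hc1 : cCh ρ.K + cNst ρ.K ≤ c1) (hcj : cJu μ + cNst ρ.K ≤ cj)
    {xo : ℕ → ℝ} (hxo : ∀ j, 0 ≤ xo j) :
    ∀ i k i1, i ≤ k → k ≤ i + L1 → k ≤ i1 → i1 ≤ nz R i0 → i1 ≤ i + L2 → az R i0 k + KK ≤ az R i0 i1 →
      rz R i0 k + KK ≤ rz R i0 i1 → (∀ z, az R i0 i ≤ z → z ≤ az R i0 k + Lk → pu z) →
      ∑ j ∈ CS M (nz R i0) (gdR R pn eg i0) (az R i0) (rz R i0) i k,
          (full (m * Real.log 2) (az R i0) (rz R i0) j -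
            errO (cc * (c0 + 1)) cc m (2 ^ (cc * (g + c0 + 1))) 3 L1 (fun j => 2 * e1 + 2 * w j)
              (I1O R.Q ((lc R.C μ o).re (ix R i0) (ix_mono R i0)) (bc R) pv (nz R i0) (az R i0) pu L1 L2 Kr Lk)
              (I2O R.Q ((lc R.C μ o).re (ix R i0) (ix_mono R i0)) (bc R) b' (nz R i0) (az R i0) pu L1 L2 Kr Lk)
              (XN M (nz R i0) (az R i0) (rz R i0) E) j) -
          c1 * ((k : ℝ) - i) - cj -
          ∑ j ∈ Ico i k, (qc R.Q R.ry (fun j => Zw R (ix R i0 j))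
            (tdg ((lc R.C μ o).re (ix R i0) (ix_mono R i0))) j + xo j) ≤
        psi R.Q R.ry (fun j => Zw R (ix R i0 j)) (fun j => (lc R.C μ o).cell (ix R i0 j) (bc R)) k -
          psi R.Q R.ry (fun j => Zw R (ix R i0 j)) (fun j => (lc R.C μ o).cell (ix R i0 j) (bc R)) i := by
  have hm := H.hm
  subst hm
  exact win_old_all (R := low R μ o) (H101.low_ok o hμ H.ok) (ix_mono R i0) (ix_le R i0 _) hΦ hcφ Hn (b0 := bc R)
    (fun j hj => (H101.good_low H.ok hμ o (bc R) (bc R) ((ix_le R i0 j).trans (Nat.le_add_right _ _))).2 hj)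
    hw.sd hw.hE hKr hLb hLk hKK pu hpu hbW Co he1 hw0 hc1 hcj hxo

end

end Vale.Agent.P106.U.H833
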