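import Vale.Agent.P106.U.H833.L2a
import Vale.Agent.P106.U.H404.RowKd
import Vale.Agent.P106.U.H336.SwF
import Vale.Agent.P106.U.H495.RowV

/-!
# P106 / U / H833 : windows of the kind deep phi over the situation `MIC.St` (helper833)

* `wp_st` : `WP` for a window (495's `WAt`) whose levels are of kind 2 and not exceptional.
* `idp_st` : the record indices `f i ≤ t ≤ y` are in `IdP`, with room; `idp_lev` : also behind `y`, up to the level `a k + Lk`.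
* `at_st` : `y` is in `At'` for the record index `f j + 1` (and for every record index `f i ≤ t < y`).
* the same for kind 1: `wk_idk`, `wk_at`.
-/

set_option autoImplicit false

namespace Vale.Agent.P106.U.H833

open Finset Vale.Agent.P127 Vale.Agent.P127.Stk
open Vale.Agent.P106.U.S3 (Run IdK IdP IdO At At')
open Vale.Agent.P106.U.S5
open Vale.Agent.P106.U.MIC
open Vale.Agent.P106.U.H118 (Sdat)
open Vale.Agent.P106.U.H336 (SwL KR)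
open Vale.Agent.P106.U.H404 (kd3)
open Vale.Agent.P106.U.H495 (WAt)
open Vale.Agent.P106.U.H812 (ix_le_n ix_le_J ix_strict ix_isA)
open Vale.Agent.P106.U.H823

section

variable {η : ℝ} {x : ℕ} {σ : Cst} {ε : ℝ} {ρ : Thr} {g : Gv} {m B h : ℕ} (s : MIC.St η x σ ε ρ g m B h)

theorem sdat_st : Sdat s.N s.gd s.a s.r := s.word.sd

/-- levels of kind 2 outside the exceptional levels -/
theorem st_kd2 (hB : 1 ≤ B) {Lw t : ℕ} (htn : t ≤ s.R.n) (h1 : aN s.R t ∉ SwL s.R B s.Vs s.Xs Lw)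
    (h2 : s.kd (aN s.R t) = 2) : 1 ≤ t ∧ t ∈ IdP s.R s.F B s.Vs s.Xs ∧
      s.R.C.rf t + 2 * (s.R.m * B) ≤ s.R.m * s.R.b1 + s.F.rk0 t := by
  have hP := s.run.ok.pth
  have hz : aN s.R t ≤ aN s.R s.R.n := aN_mono hP htn (by omega)
  have h3 : kd3 s.R s.Vs s.Xs (aN s.R t) = 2 :=
    (H404.kd3_kd hz h1).2.1.2 ((H404.kd_cases s _).2.1.1 h2)
  obtain ⟨e1, e2, _, e4⟩ := H336.idP s.f2 hP hB htn h3
  exact ⟨e1, e2, e4⟩

/-- levels of kind 1 outside the exceptional levels -/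
theorem st_kd1 (hB : 1 ≤ B) {Lw t : ℕ} (htn : t ≤ s.R.n) (h1 : aN s.R t ∉ SwL s.R B s.Vs s.Xs Lw)
    (h2 : s.kd (aN s.R t) = 1) : 1 ≤ t ∧ t ∈ IdK s.R s.Vs s.Xs ∧ KR s.R t ∧ s.bV + s.R.C.rk t ≤ s.R.C.rf t := by
  have hP := s.run.ok.pth
  have hz : aN s.R t ≤ aN s.R s.R.n := aN_mono hP htn (by omega)
  have h3 : kd3 s.R s.Vs s.Xs (aN s.R t) = 1 :=
    (H404.kd3_kd hz h1).1.2 ((H404.kd_cases s _).1.1 h2)
  exact H336.idK s.f2 hP hB htn h3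

variable {L1 L2 Lk Kr Lw i k : ℕ} {Sw : Finset ℕ} {c : Fin 3}

/-- the late state of a window -/
theorem wat_lx (hKr : 0 < Kr) (hW : WAt s.N s.a (fun z => z ∉ Sw ∧ s.kd z = c) L1 L2 Lk Kr i k) :
    i < k ∧ k ≤ i + L1 ∧ k < lx s.N s.a Kr k ∧ lx s.N s.a Kr k < s.N ∧ lx s.N s.a Kr k < i + L2 ∧
      s.a (lx s.N s.a Kr k) = s.a k + Kr ∧ s.a (lx s.N s.a Kr k + 1) = s.a k + Kr + 1 := by
  obtain ⟨h1, h2, ⟨i1, q1, q2, q3, q4⟩, _⟩ := hW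
  obtain ⟨w1, w2, w3, w4⟩ := lx_spec (sdat_st s) (k := k) (i1 := i1) q2 q1 hKr q4
  exact ⟨h1, h2, w1, by omega, by omega, w3, w4⟩

/-- the levels of the record indices of a window -/
theorem wat_lev (hKr : 0 < Kr) (hLk : Kr ≤ Lk) (hW : WAt s.N s.a (fun z => z ∉ Sw ∧ s.kd z = c) L1 L2 Lk Kr i k) {t : ℕ}
    (h1 : s.f i ≤ t) (h2 : t ≤ s.f (lx s.N s.a Kr k)) : t ≤ s.R.n ∧ aN s.R t ∉ Sw ∧ s.kd (aN s.R t) = c := by
  have hP := s.run.ok.pth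
  obtain ⟨w1, w2, w3, w4, w5, w6, w7⟩ := wat_lx s hKr hW
  have e0 : s.f (lx s.N s.a Kr k) ≤ s.R.n := ix_le_n s.R s.i0 _
  have e1 : aN s.R (s.f i) ≤ aN s.R t := aN_mono hP h1 (by omega)
  have e2 : aN s.R t ≤ aN s.R (s.f (lx s.N s.a Kr k)) := aN_mono hP h2 (by omega)
  have e3 : aN s.R (s.f i) = s.a i := rfl
  have e4 : aN s.R (s.f (lx s.N s.a Kr k)) = s.a k + Kr := w6
  exact ⟨by omega, hW.2.2.2 _ (by omega) (by omega)⟩

/-- **`WP`** for a window of kind 2 -/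
theorem wp_st (hB : 1 ≤ B) (hKr : 0 < Kr) (hLk : Kr ≤ Lk) (hSw : SwL s.R B s.Vs s.Xs Lw ⊆ Sw)
    (hW : WAt s.N s.a (fun z => z ∉ Sw ∧ s.kd z = 2) L1 L2 Lk Kr i k) :
    WP s.R s.i0 L1 L2 Kr i k (lx s.N s.a Kr k) := by
  have hP := s.run.ok.pth
  refine WP.of hP (sdat_st s) (Pu := fun z => z ∉ Sw ∧ s.kd z = 2) hKr hLk hW.1 hW.2.1 hW.2.2.1 hW.2.2.2 ?_ ?_
  · intro z hz e
    exact (H336.not_swl (R := s.R) (B := B) (Vs := s.Vs) (Xs := s.Xs) (L := Lw) (by omega) fun h => hz.1 (hSw h)).1 e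
  · intro t _ htn ht
    have h1 := (st_kd2 s hB htn (fun h => ht.1 (hSw h)) ht.2).2.2
    have h2 := s.F.l0 t
    unfold PhW
    omega

/-- **membership in `IdP`** with room, at all record indices of a window of kind 2 up to the late index -/
theorem idp_st (hB : 1 ≤ B) (hKr : 0 < Kr) (hLk : Kr ≤ Lk) (hSw : SwL s.R B s.Vs s.Xs Lw ⊆ Sw)
    (hW : WAt s.N s.a (fun z => z ∉ Sw ∧ s.kd z = 2) L1 L2 Lk Kr i k) {t : ℕ} (h1 : s.f i ≤ t)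
    (h2 : t ≤ s.f (lx s.N s.a Kr k)) : 1 ≤ t ∧ t ∈ IdP s.R s.F B s.Vs s.Xs ∧
      s.R.C.rf t + 2 * (s.R.m * B) ≤ s.R.m * s.R.b1 + s.F.rk0 t := by
  obtain ⟨e1, e2, e3⟩ := wat_lev s hKr hLk hW h1 h2
  exact st_kd2 s hB e1 (fun hh => e2 (hSw hh)) e3

/-- **membership in `IdK`** with room, at all record indices of a window of kind 1 up to the late index -/
theorem idk_st (hB : 1 ≤ B) (hKr : 0 < Kr) (hLk : Kr ≤ Lk) (hSw : SwL s.R B s.Vs s.Xs Lw ⊆ Sw)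
    (hW : WAt s.N s.a (fun z => z ∉ Sw ∧ s.kd z = 1) L1 L2 Lk Kr i k) {t : ℕ} (h1 : s.f i ≤ t)
    (h2 : t ≤ s.f (lx s.N s.a Kr k)) : 1 ≤ t ∧ t ∈ IdK s.R s.Vs s.Xs ∧ KR s.R t ∧
      s.bV + s.R.C.rk t ≤ s.R.C.rf t := by
  obtain ⟨e1, e2, e3⟩ := wat_lev s hKr hLk hW h1 h2
  exact st_kd1 s hB e1 (fun hh => e2 (hSw hh)) e3

/-- the late index is a time step -/
theorem isA_st (hKr : 0 < Kr) (hW : WAt s.N s.a (fun z => z ∉ Sw ∧ s.kd z = c) L1 L2 Lk Kr i k) :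
    s.R.IsA (s.f (lx s.N s.a Kr k)) := by
  obtain ⟨w1, w2, w3, w4, w5, w6, w7⟩ := wat_lx s hKr hW
  exact ix_isA s.run.ok.pth w4 (show s.a (lx s.N s.a Kr k + 1) = s.a (lx s.N s.a Kr k) + 1 by rw [w6, w7])

/-- **membership in `At'`** of the late index, from every record index `f i ≤ t < y` of a window (any kind) -/
theorem at_st (hKr : 0 < Kr) (hLk : Kr ≤ Lk) (hLw : L1 + Kr ≤ Lw) (hSw : SwL s.R B s.Vs s.Xs Lw ⊆ Sw)
    (hW : WAt s.N s.a (fun z => z ∉ Sw ∧ s.kd z = c) L1 L2 Lk Kr i k) {t : ℕ} (h1 : s.f i ≤ t)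
    (h2 : t < s.f (lx s.N s.a Kr k)) : At s.R s.pn B (s.a k + Kr - aN s.R t) t (s.f (lx s.N s.a Kr k)) ∧
      s.f (lx s.N s.a Kr k) ∈ At' s.R s.pn B (s.a k + Kr - aN s.R t) t ∧ s.a k + Kr - aN s.R t ≤ L1 + Kr := by
  have hP := s.run.ok.pth
  obtain ⟨w1, w2, w3, w4, w5, w6, w7⟩ := wat_lx s hKr hW
  obtain ⟨e1, e2, e3⟩ := wat_lev s hKr hLk hW h1 h2.le
  have hn : s.f (lx s.N s.a Kr k) ≤ s.R.n := ix_le_n s.R s.i0 _
  have g1 : aN s.R (s.f i) ≤ aN s.R t := aN_mono hP h1 (by omega)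
  have g2 : aN s.R t ≤ aN s.R (s.f (lx s.N s.a Kr k)) := aN_mono hP h2.le (by omega)
  have g3 : aN s.R (s.f i) = s.a i := rfl
  have g4 : aN s.R (s.f (lx s.N s.a Kr k)) = s.a k + Kr := w6
  have g5 : s.a k ≤ s.a i + (k - i) := (sdat_st s).al (i := i) (j := k) (by omega) (by omega)
  have g6 := H336.at_of (B := B) (Vs := s.Vs) (Xs := s.Xs) (p := s.pn) hP (L := Lw) (k := t)
    (i := s.f (lx s.N s.a Kr k)) (d := s.a k + Kr - aN s.R t) (fun hh => e2 (hSw hh)) h2 hn (isA_st s hKr hW)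
    (by omega) (by omega)
  exact ⟨g6.1, g6.2, by omega⟩

end

end Vale.Agent.P106.U.H833
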