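import Vale.Agent.P127.U.Mic.CountW
import Vale.Agent.P127.U.H833.Avg

/-!
# P106 / U / H833 : composition of the micro part, abstract form (helper833)

No geometry.  `P` a finite law, `l` the ray, `T j` the information of the path after `j` steps, `J j x` the
cell of the ray at the step `j` and the base level `x` (nested in `j` and in `x`), `σ v ≤ k v ≤ σ (v+1)` the
windows (`k v` = last counted step of the window `v`), `St` the counted steps.

* `mic_abs` : M-step inequality for every counted step and every base level (error = any `cl v j x` plus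
  `G (√I₁ + √I₂)`, with `I₁` the information of a block `η x` of the slope, `I₂` the information of any `Θ v j`)
  + the count of one window ⇒ one base level `x ∈ B` with
  `∑ full - ∑ cl - G (√(N L1 Hη) + N √(β HΘ / |B|)) ≤ I(l ; J (σ V) x | J (σ 0) x)`, `N` = number of counted steps.
-/

set_option autoImplicit false

namespace Vale.Agent.P106.U.H833

open Finset Vale.Agent.P127 Vale.Agent.P127.Stk Vale.Agent.P127.U.Cell Vale.Agent.P127.U.Mic
open Vale.Agent.P127.U.H833 (exists_b)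

variable {Ω : Type} [Fintype Ω] {lam tau kap eta the : Type*}

/-- the windows -/
structure Wins (σ k : ℕ → ℕ) (L1 : ℕ) : Prop where
  lo : ∀ v, σ v ≤ k v
  hi : ∀ v, k v ≤ σ (v + 1)
  len : ∀ v, σ (v + 1) ≤ σ v + L1

/-- the counted steps -/
def St (σ k : ℕ → ℕ) (V : ℕ) : Finset (Σ _ : ℕ, ℕ) := (range V).sigma fun v => Ioc (σ v) (k v)

theorem mem_St {σ k : ℕ → ℕ} {V : ℕ} {x : Σ _ : ℕ, ℕ} :
    x ∈ St σ k V ↔ x.1 < V ∧ σ x.1 < x.2 ∧ x.2 ≤ k x.1 := by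
  rw [St, Finset.mem_sigma, Finset.mem_range, Finset.mem_Ioc]

theorem sum_St (σ k : ℕ → ℕ) (V : ℕ) (f : ℕ → ℕ → ℝ) :
    ∑ x ∈ St σ k V, f x.1 x.2 = ∑ v ∈ range V, ∑ j ∈ Ioc (σ v) (k v), f v j := by
  rw [St, Finset.sum_sigma]

/-- sums over the counted steps -/
theorem sum_St_le {σ k : ℕ → ℕ} {L1 : ℕ} (hw : Wins σ k L1) (f : ℕ → ℝ) (hf : ∀ j, 0 ≤ f j) (V : ℕ) :
    ∑ x ∈ St σ k V, f x.2 ≤ ∑ j ∈ Ioc (σ 0) (σ V), f j := by
  rw [sum_St σ k V (fun _ j => f j)]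
  have hσ : Monotone σ := monotone_nat_of_le_succ fun v => (hw.lo v).trans (hw.hi v)
  induction V with
  | zero => simp
  | succ V ih =>
    rw [Finset.sum_range_succ]
    have h4 : ∑ j ∈ Ioc (σ 0) (σ (V + 1)), f j =
        ∑ j ∈ Ioc (σ 0) (σ V), f j + ∑ j ∈ Ioc (σ V) (σ (V + 1)), f j :=
      (Finset.sum_Ioc_consecutive f (hσ (Nat.zero_le V)) (hσ (Nat.le_succ V))).symm
    have h5 : ∑ j ∈ Ioc (σ V) (k V), f j ≤ ∑ j ∈ Ioc (σ V) (σ (V + 1)), f j :=
      Finset.sum_le_sum_of_subset_of_nonneg (Finset.Ioc_subset_Ioc_right (hw.hi V)) fun j _ _ => hf j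
    linarith

/-- a longer window has more information -/
theorem mi_mono_nest {P : Law Ω} {C : ℕ → Ω → kap} (hC : ∀ {i j : ℕ}, i ≤ j → Fn P (C i) (C j))
    (U : Ω → eta) {j i i' : ℕ} (h1 : j ≤ i) (h2 : i ≤ i') :
    mi P U (C i) (C j) ≤ mi P U (C i') (C j) := by
  rw [mi_nested P U (hC h1), mi_nested P U (hC (h1.trans h2))]
  have := hc_mono_right P U (hC h2)
  linarith

/-- **MIC, abstract composition** -/
theorem mic_abs (P : Law Ω) (l : Ω → lam) (T : ℕ → Ω → tau) (J : ℕ → ℕ → Ω → kap)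
    (hD : ∀ x, Dat P l T (fun j => J j x)) (hx : ∀ (j : ℕ) {x y : ℕ}, x ≤ y → Fn P (J j x) (J j y))
    {σ k : ℕ → ℕ} {L1 : ℕ} (hw : Wins σ k L1) (V : ℕ)
    (B : Finset ℕ) (hBn : B.Nonempty) (β : ℕ)
    -- the block of the slope
    (η : ℕ → Ω → eta) {Hη : ℝ} (hη : ∀ x ∈ B, hc P (η x) (J 0 x) ≤ Hη)
    -- the information of the copies
    (Θ : ℕ → ℕ → Ω → the) {HΘ : ℝ} (hΘ : ∀ v < V, ∀ j, σ v < j → j ≤ k v → hc P (Θ v j) (J j 0) ≤ HΘ)
    -- the M-step, the count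
    {G : ℝ} (hG : 0 ≤ G) (full : ℕ → ℕ → ℝ) (cl S : ℕ → ℕ → ℕ → ℝ)
    (hS : ∀ v < V, ∀ j, σ v < j → j ≤ k v → ∀ x ∈ B,
      full v j - (cl v j x + G * (Real.sqrt (mi P (η x) (J (σ (v + 1)) x) (J j x)) +
        Real.sqrt (mi P (Θ v j) (J j (x + β)) (J j x)))) ≤ S v j x)
    (hcount : ∀ v < V, ∀ x ∈ B, ∑ j ∈ Ioc (σ v) (k v), S v j x ≤
      mi P l (J (σ (v + 1)) x) (J (σ v) x)) :
    ∃ x ∈ B, ∑ y ∈ St σ k V, full y.1 y.2 - (∑ y ∈ St σ k V, cl y.1 y.2 x +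
        G * (Real.sqrt ((St σ k V).card * (L1 * Hη)) +
          (St σ k V).card * Real.sqrt (β * HΘ / B.card))) ≤
      mi P l (J (σ V) x) (J (σ 0) x) := by
  classical
  have hσm : Monotone σ := monotone_nat_of_le_succ fun v => (hw.lo v).trans (hw.hi v)
  set I₁ : (Σ _ : ℕ, ℕ) → ℕ → ℝ := fun y x => mi P (η x) (J (σ (y.1 + 1)) x) (J y.2 x) with hI₁
  set I₂ : (Σ _ : ℕ, ℕ) → ℕ → ℝ := fun y x => mi P (Θ y.1 y.2) (J y.2 (x + β)) (J y.2 x) with hI₂
  -- the first information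
  have hA₁ : ∀ x ∈ B, ∑ y ∈ St σ k V, I₁ y x ≤ L1 * Hη := by
    intro x hxB
    have h1 : ∀ y ∈ St σ k V, I₁ y x ≤ mi P (η x) (J (y.2 + L1) x) (J y.2 x) := by
      intro y hy
      obtain ⟨e1, e2, e3⟩ := mem_St.1 hy
      exact mi_mono_nest (fun h => (hD x).CC h) (η x) (e3.trans (hw.hi y.1))
        (by have := hw.len y.1; omega)
    refine (Finset.sum_le_sum h1).trans ?_
    refine (sum_St_le hw (fun j => mi P (η x) (J (j + L1) x) (J j x))
      (fun j => mi_nonneg P _ _ _) V).trans ?_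
    have h2 : ∑ j ∈ Ioc (σ 0) (σ V), mi P (η x) (J (j + L1) x) (J j x) ≤
        ∑ j ∈ range (σ V + 1), mi P (η x) (J (j + L1) x) (J j x) := by
      refine Finset.sum_le_sum_of_subset_of_nonneg ?_ fun j _ _ => mi_nonneg P _ _ _
      intro j hj
      rw [Finset.mem_Ioc] at hj
      rw [Finset.mem_range]
      omega
    refine h2.trans ((tele P (fun j => J j x) (fun i j hij => (hD x).CC hij)
      (η x) (σ V + 1) L1).trans ?_)
    exact mul_le_mul_of_nonneg_left (hη x hxB) (Nat.cast_nonneg _)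
  -- the second information
  have hA₂ : ∀ y ∈ St σ k V, ∑ x ∈ B, I₂ y x ≤ β * HΘ := by
    intro y hy
    obtain ⟨e1, e2, e3⟩ := mem_St.1 hy
    have a1 : ∑ x ∈ B, I₂ y x ≤
        ∑ x ∈ range (B.sup id + 1), mi P (Θ y.1 y.2) (J y.2 (x + β)) (J y.2 x) := by
      refine Finset.sum_le_sum_of_subset_of_nonneg ?_ fun j _ _ => mi_nonneg P _ _ _
      intro x hx
      rw [Finset.mem_range]
      exact Nat.lt_succ_of_le (Finset.le_sup (f := id) hx)
    refine a1.trans ((tele P (fun x => J y.2 x) (fun x x' h => hx y.2 h)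
      (Θ y.1 y.2) (B.sup id + 1) β).trans ?_)
    exact mul_le_mul_of_nonneg_left (hΘ y.1 e1 y.2 e2 e3) (Nat.cast_nonneg _)
  obtain ⟨x, hxB, hy1, hy2⟩ := exists_b B hBn (St σ k V) I₁ I₂ (fun _ _ _ _ => mi_nonneg P _ _ _)
    (fun _ _ _ _ => mi_nonneg P _ _ _) hA₁ hA₂
  refine ⟨x, hxB, ?_⟩
  have htot := (hD x).total σ (fun v => (hw.lo v).trans (hw.hi v)) V
  rw [← htot]
  have hall : ∑ y ∈ St σ k V, S y.1 y.2 x ≤
      ∑ v ∈ range V, mi P l (J (σ (v + 1)) x) (J (σ v) x) := by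
    rw [sum_St σ k V (fun v j => S v j x)]
    exact Finset.sum_le_sum fun v hv => hcount v (Finset.mem_range.1 hv) x hxB
  refine le_trans ?_ hall
  have g1 : ∀ y ∈ St σ k V, full y.1 y.2 - (cl y.1 y.2 x + G * (Real.sqrt (I₁ y x) +
      Real.sqrt (I₂ y x))) ≤ S y.1 y.2 x := by
    intro y hy
    obtain ⟨e1, e2, e3⟩ := mem_St.1 hy
    exact hS y.1 e1 y.2 e2 e3 x hxB
  have g2 := Finset.sum_le_sum g1
  rw [Finset.sum_sub_distrib, Finset.sum_add_distrib, ← Finset.mul_sum,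
    Finset.sum_add_distrib] at g2
  have g3 : G * (∑ y ∈ St σ k V, Real.sqrt (I₁ y x) + ∑ y ∈ St σ k V, Real.sqrt (I₂ y x)) ≤
      G * (Real.sqrt ((St σ k V).card * (L1 * Hη)) +
          (St σ k V).card * Real.sqrt (β * HΘ / B.card)) :=
    mul_le_mul_of_nonneg_left (add_le_add hy1 hy2) hG
  linarith

end Vale.Agent.P106.U.H833
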