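import Vale.Agent.P106.U.H833.Zon
import Vale.Agent.P106.U.S3.F2
import Vale.Agent.P106.U.H683.PSatPhi
import Vale.Agent.P106.H25.PKapW
import Vale.Agent.P106.U.H931.KapC

/-!
# P106 / U / H833 : the N-step of a counted old step over a run, all regimes (helper833)

`R` = run (already with the low margin `μ`), cap `b = m x`, `f` = indices (compressed path), `Cf = R.C.re f hf`.
For a counted step `j` with a good time step on its level, later step `i`, no mixed state in `[j, i]`: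

`SatN Q Cf b j i (full - (c (c0+1) + c m (2 e1 + 2 w) + 2^(c (g+c0+1)) (√I1 + √I2)))`

* `I1N`, `I2N` : the two informations, letters `S3.LDk`, `S3.LTh` (the regime is inside).
* `NumN` : the numbers.
* `ColN` : bounds of the collisions: `w` bounds `MIC.cY` (phi), `H931.cYc` (kappa) and, at a type (ii) step of the kappa regime,
  `MIC.cW`.
* `nstep` : the theorem.
-/

set_option autoImplicit false

namespace Vale.Agent.P106.U.H833

open Finset Vale.Agent.P127 Vale.Agent.P127.Stk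
open Vale.Agent.P106.U.Cell
open Vale.Agent.P106.U.S3
open Vale.Agent.P106.U.MIC (Adv wt cT cF cY cL cW)
open Vale.Agent.P106.U.H118 (Sdat CS mem_CS full)
open Vale.Agent.P106.U.H931 (Nq nx XN)
open Vale.Agent.P106.U.H466 (Ctx)
open Vale.Agent.P106.U.H683 (Dp Reg)

section

variable {Ω : Type} [Fintype Ω] {τ υ : Type}

/-- first information : the direction and the late cell -/
noncomputable def I1N (P : Law Ω) (C : Pth Ω τ) (b pv j i : ℕ) : ℝ :=
  mi P (fun ω => fl1 (b + pv) (C.l ω).v) (C.cell i b) (fun ω => (LDk C b (j + 1) ω, LTh C b i ω))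

/-- second information : the late letter and the fine cell -/
noncomputable def I2N (P : Law Ω) (C : Pth Ω τ) (b b' j i : ℕ) : ℝ :=
  mi P (LTh C b i) (C.cell (j + 1) b') (LDk C b (j + 1))

/-- body of `MIC.PSatPhi` -/
def PhiC (c : ℕ) : Prop := ∀ {Ω τ : Type} [Fintype Ω] (P : Law Ω) (C : Pth Ω τ) (K : ℝ) (c0 m g p b b' j i : ℕ)
    (ι₁ ι₂ : ℝ), (∀ ω, 0 < P.w ω → C.Ok K ω) → Reg C (j + 1) i b → Reg C j i b → Adv C m b j →
    b + 8 * C.μ ≤ b' → C.μ ≤ p → b + p ≤ b' → 2 * K ≤ 2 ^ c0 → 1 ≤ m → m ≤ g → c * (g + c0 + 1) ≤ C.μ →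
    mi P (fun ω => fl1 (b + p) (C.l ω).v) (C.cell i b) (fun ω => (Dp C (j + 1) b ω, MIC.Th C b i ω)) ≤ ι₁ →
    mi P (MIC.Th C b i) (C.cell (j + 1) b') (Dp C (j + 1) b) ≤ ι₂ →
    MIC.SatN P C b j i (wt C b j * Real.log 2 - (c * (c0 + 1) + c * m * (cT P C b (j + 1) g + cF P C b (j + 1) g +
      cY P C b (j + 1) g) + (2 : ℝ) ^ (c * (g + c0 + 1)) * (Real.sqrt ι₁ + Real.sqrt ι₂)))

theorem exists_phiC : ∃ c, PhiC c := H683.pSatPhi

/-- numbers of the N-step: cap `x`, blocks `Mu` of the margin, distance `Wd` from the change of the regime, `Kr` = distance of the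
later step in the time, `Lb` = bound of this distance -/
structure NumN (R : Run Ω τ υ) (p : Run.Num) (K : ℝ) (cc x M s c0 g pv b' Mu Wd Kr Lb : ℕ) : Prop where
  cc8 : 800 ≤ cc
  K1 : 1 ≤ K
  Kc : 2 * K ≤ 2 ^ c0
  hx : R.m * x ≤ p.B₁
  hg : (M + s + 1) * R.m + 2 * c0 + 1 ≤ g
  hμ : cc * (g + c0 + 1) ≤ R.C.μ
  hpv : R.C.μ ≤ pv
  b8 : R.m * x + 8 * R.C.μ ≤ b'
  bp : R.m * x + pv ≤ b'
  Mu8 : 8 * R.C.μ ≤ R.m * Mu
  Mux : Mu ≤ x
  r0 : 8 * R.C.μ ≤ R.r0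
  sx : s ≤ x
  W1 : M + 1 ≤ Wd
  W2 : Lb + Mu ≤ Wd
  xL : Lb + Mu ≤ x
  Kr1 : p.J * Mu + Mu ≤ Kr

theorem I1N_kap {P : Law Ω} {C : Pth Ω τ} {b pv j i : ℕ} (h : ¬ C.rf (j + 1) ≤ b + C.rk (j + 1)) (h' : ¬ C.rf i ≤ b + C.rk i) :
    mi P (fun ω => fl1 (b + pv) (C.l ω).v) (C.cell i b) (fun ω => (C.cell (j + 1) b ω, C.T i ω)) = I1N P C b pv j i := by
  unfold I1N
  refine mi_congr_cond P _ _ ?_ ?_
  · intro ω ω' _ _ e
    simp only [LDk, LTh, Prod.mk.injEq] at e ⊢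
    exact ⟨e.1.1, e.2.1⟩
  · intro ω ω' _ _ e
    simp only [LDk, LTh, Prod.mk.injEq, if_neg h, if_neg h'] at e ⊢
    exact ⟨⟨e.1, trivial⟩, e.2, trivial⟩

theorem I2N_kap {P : Law Ω} {C : Pth Ω τ} {b b' j i : ℕ} (h : ¬ C.rf (j + 1) ≤ b + C.rk (j + 1)) (h' : ¬ C.rf i ≤ b + C.rk i) :
    mi P (C.T i) (C.cell (j + 1) b') (C.cell (j + 1) b) = I2N P C b b' j i := by
  unfold I2N
  have e1 : mi P (C.T i) (C.cell (j + 1) b') (C.cell (j + 1) b) = mi P (C.T i) (C.cell (j + 1) b') (LDk C b (j + 1)) := by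
    refine mi_congr_cond P _ _ ?_ ?_
    · intro ω ω' _ _ e
      simp only [LDk, Prod.mk.injEq] at e
      exact e.1
    · intro ω ω' _ _ e
      simp only [LDk, Prod.mk.injEq, if_neg h] at e ⊢
      exact ⟨e, trivial⟩
  rw [e1]
  refine le_antisymm (mi_mono_left P _ ?_) (mi_mono_left P _ ?_)
  · intro ω ω' _ _ e
    simp only [LTh, Prod.mk.injEq] at e
    exact e.1.1
  · intro ω ω' _ _ e
    simp only [LTh, Prod.mk.injEq, if_neg h'] at e ⊢
    exact ⟨e.1, trivial⟩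

theorem LDk_phi {C : Pth Ω τ} {b k : ℕ} (h : C.rf k ≤ b + C.rk k) : LDk C b k = Dp C k b := by
  funext ω
  unfold LDk Dp
  rw [if_pos h]

theorem LTh_eq (C : Pth Ω τ) (b i : ℕ) : LTh C b i = MIC.Th C b i := rfl

variable {R : Run Ω τ υ} {p : Run.Num} {K c' g' gU : ℝ}

/-- the levels of the path along `f` -/
theorem lv_of (hP : R.Path p) (x : ℕ) {f : ℕ → ℕ} (hf : Monotone f) {t : ℕ} (ht : f t ≤ R.n + p.J) :
    (R.C.re f hf).a t = R.m * aN R (f t) ∧ (R.C.re f hf).rk t = R.r0 + R.m * kN R (f t) ∧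
      (R.C.re f hf).rf t = R.r0 + R.m * fN R (f t) ∧ (R.C.re f hf).R t (R.m * x) = R.r0 + R.m * RN R x (f t) :=
  ⟨lev_a hP ht, lev_k hP ht, lev_f hP ht, lev_R hP x ht⟩

/-- arithmetic of the error -/
theorem nstep_num {W c cc c0 m e1 w T F Y A A' S : ℝ} (hc : c ≤ cc) (hm : 1 ≤ m) (hw : 0 ≤ w) (he : 0 ≤ e1)
    (hT : T ≤ e1) (hF : F ≤ e1 + w) (hY : Y ≤ w) (hA : A ≤ A') (hS : 0 ≤ S) (hc0 : 0 ≤ c0) (hcp : 0 ≤ c) :
    W - (cc * (c0 + 1) + cc * m * (2 * e1 + 2 * w) + A' * S) ≤ W - (c * (c0 + 1) + c * m * (T + F + Y) + A * S) := by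
  have h1 : c * (c0 + 1) ≤ cc * (c0 + 1) := mul_le_mul_of_nonneg_right hc (by linarith)
  have h2 : c * m * (T + F + Y) ≤ cc * m * (2 * e1 + 2 * w) := by
    have e1' : T + F + Y ≤ 2 * e1 + 2 * w := by linarith
    have e2 : 0 ≤ 2 * e1 + 2 * w := by linarith
    calc c * m * (T + F + Y) ≤ c * m * (2 * e1 + 2 * w) := mul_le_mul_of_nonneg_left e1' (by positivity)
      _ ≤ cc * m * (2 * e1 + 2 * w) := by
        refine mul_le_mul_of_nonneg_right ?_ e2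
        exact mul_le_mul_of_nonneg_right hc (by linarith)
  have h3 : A * S ≤ A' * S := mul_le_mul_of_nonneg_right hA hS
  linarith

/-- the pair (step, later step) -/
structure PairN (R : Run Ω τ υ) (x N : ℕ) (f : ℕ → ℕ) (Wd Kr Lb j i : ℕ) : Prop where
  hji : j + 1 ≤ i
  hi : i ≤ N
  hKr : aN R (f (j + 1)) + Kr ≤ aN R (f i)
  hLb : aN R (f i) ≤ aN R (f j) + Lb
  hmix : ∀ t, j ≤ t → t ≤ i → ¬ mixed R x Wd (f t)

section pair

variable {f : ℕ → ℕ} {N cc x M s c0 g pv b' Mu Wd Kr Lb j i : ℕ} {γ : ℕ → Prop}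

/-- the two levels of the phi regime -/
theorem phi_reg (hP : R.Path p) (hf : Monotone f) (hN : f N ≤ R.n) (H : NumN R p K cc x M s c0 g pv b' Mu Wd Kr Lb)
    (D : Sdat N γ (fun i => aN R (f i)) (fun i => RN R x (f i))) (Q : PairN R x N f Wd Kr Lb j i)
    (hr : isPhi R x Wd (f j)) : Reg (R.C.re f hf) (j + 1) i (R.m * x) ∧ Reg (R.C.re f hf) j i (R.m * x) ∧
      (R.C.re f hf).rf (j + 1) ≤ R.m * x + (R.C.re f hf).rk (j + 1) ∧ isPhi R x Wd (f (j + 1)) := by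
  have hji := Q.hji
  have hi := Q.hi
  have hfi : f i ≤ R.n := (hf hi).trans hN
  have hfj1 : f (j + 1) ≤ R.n := (hf (by omega)).trans hN
  have hfj : f j ≤ R.n := (hf (by omega)).trans hN
  obtain ⟨ai, ki, fi, _⟩ := lv_of hP x hf (t := i) (by omega)
  obtain ⟨a1, k1, f1, _⟩ := lv_of hP x hf (t := j + 1) (by omega)
  obtain ⟨a0, k0, f0, _⟩ := lv_of hP x hf (t := j) (by omega)
  have hm1 := hP.m1
  have hW : 1 ≤ Wd := by have := H.W1; omega
  have hr1 : isPhi R x Wd (f (j + 1)) :=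
    phi_same hP hf hN D hW (Nat.le_succ j) (by omega) hr fun t h1 h2 => Q.hmix t h1 (by omega)
  have hri := phi_same hP hf hN D hW (by omega : j ≤ i) hi hr Q.hmix
  have gi := advT hP hf hN D H.hx Mu (j + 1) i hji hi (by have := H.Kr1; have := Q.hKr; omega)
  have eR1 := hr1.RN
  have eRi := hri.RN
  have hWL := H.W2
  have hMu8 := H.Mu8
  have hMuXm : R.m * Mu ≤ R.m * x := Nat.mul_le_mul_left _ H.Mux
  have hr0 := H.r0
  have hai : R.m * aN R (f (j + 1)) + R.m * Mu ≤ R.m * aN R (f i) := by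
    rw [← Nat.mul_add]
    exact Nat.mul_le_mul_left _ (by have := H.Kr1; have := Q.hKr; omega)
  have haL : R.m * aN R (f i) ≤ R.m * aN R (f j) + R.m * Lb := by
    rw [← Nat.mul_add]
    exact Nat.mul_le_mul_left _ Q.hLb
  have haj : R.m * aN R (f j) ≤ R.m * aN R (f (j + 1)) :=
    Nat.mul_le_mul_left _ (aN_mono hP (hf (Nat.le_succ j)) (by omega))
  have h1' := hr1
  unfold isPhi at hr hr1 hri
  have u0 : R.m * fN R (f j) + R.m * (Lb + Mu) ≤ R.m * kN R (f j) + R.m * x := by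
    rw [← Nat.mul_add, ← Nat.mul_add]
    exact Nat.mul_le_mul_left _ (by omega)
  have u1 : R.m * fN R (f (j + 1)) + R.m * (Lb + Mu) ≤ R.m * kN R (f (j + 1)) + R.m * x := by
    rw [← Nat.mul_add, ← Nat.mul_add]
    exact Nat.mul_le_mul_left _ (by omega)
  have ui : R.m * fN R (f i) ≤ R.m * kN R (f i) + R.m * x := by
    rw [← Nat.mul_add]
    exact Nat.mul_le_mul_left _ (by omega)
  have u2 : R.m * fN R (f (j + 1)) + R.m * Mu ≤ R.m * fN R (f i) := by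
    rw [← Nat.mul_add]
    exact Nat.mul_le_mul_left _ (by omega)
  have u3 : R.m * fN R (f j) ≤ R.m * fN R (f (j + 1)) :=
    Nat.mul_le_mul_left _ (fN_mono hP (hf (Nat.le_succ j)) (by omega))
  have u4 : R.m * (Lb + Mu) = R.m * Lb + R.m * Mu := Nat.mul_add _ _ _
  refine ⟨⟨hji, ?_, ?_, ?_, ?_, ?_, ?_⟩, ⟨by omega, ?_, ?_, ?_, ?_, ?_, ?_⟩, ?_, h1'⟩
  · show 8 * R.C.μ ≤ R.m * x
    omega
  · rw [f1]
    show 8 * R.C.μ ≤ _
    omega
  · rw [a1, ai]
    show _ + 8 * R.C.μ ≤ _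
    omega
  · rw [f1, fi]
    show _ + 8 * R.C.μ ≤ _
    omega
  · rw [f1, k1, a1, ai]
    show _ + _ + 8 * R.C.μ ≤ _
    omega
  · rw [fi, ki]
    omega
  · show 8 * R.C.μ ≤ R.m * x
    omega
  · rw [f0]
    show 8 * R.C.μ ≤ _
    omega
  · rw [a0, ai]
    show _ + 8 * R.C.μ ≤ _
    omega
  · rw [f0, fi]
    show _ + 8 * R.C.μ ≤ _
    omega
  · rw [f0, k0, a0, ai]
    show _ + _ + 8 * R.C.μ ≤ _
    omega
  · rw [fi, ki]
    omega
  · rw [f1, k1]
    omega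

/-- intermediate step -/
theorem kap_y (hP : R.Path p) (hf : Monotone f) (hN : f N ≤ R.n) (H : NumN R p K cc x M s c0 g pv b' Mu Wd Kr Lb)
    (D : Sdat N γ (fun i => aN R (f i)) (fun i => RN R x (f i))) (Q : PairN R x N f Wd Kr Lb j i)
    (hr : isKap R x Wd (f j)) : isKap R x Wd (f (j + 1)) ∧ isKap R x Wd (f i) ∧
      ∃ y, j + 1 ≤ y ∧ y ≤ i ∧ R.C.rk (f (j + 1)) + 8 * R.C.μ ≤ R.C.rk (f y) ∧ R.C.a (f y) + 8 * R.C.μ ≤ R.C.a (f i) := by
  have hji := Q.hji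
  have hi := Q.hi
  have hfi : f i ≤ R.n := (hf hi).trans hN
  have hfj1 : f (j + 1) ≤ R.n := (hf (by omega)).trans hN
  have hW : 1 ≤ Wd := by have := H.W1; omega
  have hKr1 := H.Kr1
  have hKr := Q.hKr
  obtain ⟨y, hy1, hy2, hy3⟩ := ex_lev hP hf hN D (j := j + 1) (i := i) (v := aN R (f (j + 1)) + p.J * Mu) hji hi
    (by omega) (by omega)
  have gy := advT hP hf hN D H.hx Mu (j + 1) y hy1 (by omega) (by omega)
  have hr1 : isKap R x Wd (f (j + 1)) :=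
    kap_same hP hf hN D hW (Nat.le_succ j) (by omega) hr fun t h1 h2 => Q.hmix t h1 (by omega)
  have hry : isKap R x Wd (f y) :=
    kap_same hP hf hN D hW (by omega : j ≤ y) (by omega) hr fun t h1 h2 => Q.hmix t h1 (by omega)
  have hri := kap_same hP hf hN D hW (by omega : j ≤ i) hi hr Q.hmix
  have eR1 := hr1.RN
  have eRy := hry.RN
  have hMu8 := H.Mu8
  have hfy : f y ≤ R.n := (hf (hy2.trans hi)).trans hN
  refine ⟨hr1, hri, y, hy1, hy2, ?_, ?_⟩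
  · have uy : R.m * kN R (f (j + 1)) + R.m * Mu ≤ R.m * kN R (f y) := by
      rw [← Nat.mul_add]
      exact Nat.mul_le_mul_left _ (by omega)
    rw [lev_k hP (i := f y) (by omega), lev_k hP (i := f (j + 1)) (by omega)]
    omega
  · have vy : R.m * aN R (f y) + R.m * Mu ≤ R.m * aN R (f i) := by
      rw [← Nat.mul_add]
      exact Nat.mul_le_mul_left _ (by omega)
    rw [lev_a hP (i := f y) (by omega), lev_a hP (i := f i) (by omega)]
    omega

/-- frame -/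
theorem kap_fr (hP : R.Path p) (hf : Monotone f) (hfj1 : f (j + 1) ≤ R.n)
    (hadv : Adv (R.C.re f hf) R.m (R.m * x) j) (hr : isKap R x Wd (f j)) (hr1 : isKap R x Wd (f (j + 1)))
    (hbW : ∀ t, j ≤ t → t ≤ j + 1 → isKap R x Wd (f t) → R.C.rk (f t) + b' ≤ R.C.rf (f t)) :
    ∃ fr, fr ≤ j + 1 ∧ R.C.rk (f fr) = R.C.rk (f (j + 1)) ∧
      ((R.C.re f hf).a (j + 1) = (R.C.re f hf).a j + R.m → fr ≤ j) ∧ R.C.rk (f fr) + b' ≤ R.C.rf (f fr) := by
  have hfj : f j ≤ R.n := (hf (Nat.le_succ j)).trans hfj1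
  have hm1 := hP.m1
  rcases hadv with ⟨_, w2⟩ | ⟨w1, w2⟩
  · refine ⟨j, by omega, ?_, fun _ => le_rfl, hbW j le_rfl (by omega) hr⟩
    have e0 : (R.C.re f hf).R j (R.m * x) = R.r0 + R.m * RN R x (f j) := lev_R hP x (by omega)
    have e1 : (R.C.re f hf).R (j + 1) (R.m * x) = R.r0 + R.m * RN R x (f (j + 1)) := lev_R hP x (by omega)
    rw [e0, e1] at w2
    have h5 : R.m * RN R x (f (j + 1)) = R.m * RN R x (f j) := by omega
    have h6 := Nat.eq_of_mul_eq_mul_left hm1 h5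
    rw [hr.RN, hr1.RN] at h6
    rw [lev_k hP (i := f j) (by omega), lev_k hP (i := f (j + 1)) (by omega)]
    have h7 : kN R (f j) = kN R (f (j + 1)) := by omega
    rw [h7]
  · exact ⟨j + 1, le_rfl, rfl, fun w3 => by omega, hbW (j + 1) (by omega) le_rfl hr1⟩

/-- intermediate step and frame of the kappa regime -/
theorem kap_ctx (h : R.Ok p K c' g' gU) (hf : Monotone f) (hN : f N ≤ R.n)
    (H : NumN R p K cc x M s c0 g pv b' Mu Wd Kr Lb)
    (D : Sdat N γ (fun i => aN R (f i)) (fun i => RN R x (f i))) (Q : PairN R x N f Wd Kr Lb j i)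
    (hadv : Adv (R.C.re f hf) R.m (R.m * x) j)
    (hbW : ∀ t, j ≤ t → t ≤ j + 1 → isKap R x Wd (f t) → R.C.rk (f t) + b' ≤ R.C.rf (f t))
    (hr : isKap R x Wd (f j)) : isKap R x Wd (f (j + 1)) ∧
      ∃ fr y, fr ≤ j + 1 ∧ R.C.rk (f fr) = R.C.rk (f (j + 1)) ∧ j + 1 ≤ y ∧ y ≤ i ∧
        ((R.C.re f hf).a (j + 1) = (R.C.re f hf).a j + R.m → fr ≤ j) ∧
        R.C.rk (f (j + 1)) + 8 * R.C.μ ≤ R.C.rk (f y) ∧ R.C.a (f y) + 8 * R.C.μ ≤ R.C.a (f i) ∧
        Ctx (R.C.re f hf) (fun ω => 0 < R.Q.w ω) K fr (j + 1) y i (R.m * x) b' pv := by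
  have hP := h.pth
  have hji := Q.hji
  have hi := Q.hi
  obtain ⟨hr1, hri, y, hy1, hy2, r8, a8⟩ := kap_y hP hf hN H D Q hr
  obtain ⟨fr, hfr1, hkfr, hfr3, hfr4⟩ := kap_fr hP hf ((hf (by omega)).trans hN) hadv hr hr1 hbW
  refine ⟨hr1, fr, y, hfr1, hkfr, hy1, hy2, hfr3, r8, a8, H.K1, fun ω hω => Pth.re_ok f hf (h.ok ω hω), hfr1, hkfr, hy1,
    hy2, a8, r8, ?_, ?_, H.b8, H.bp, hfr4, ?_⟩
  · show 8 * R.C.μ ≤ R.m * x
    have h1 : R.m * Mu ≤ R.m * x := Nat.mul_le_mul_left _ H.Mux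
    have h2 := H.Mu8
    omega
  · show R.C.a (f i) + 8 * R.C.μ ≤ R.C.a (f (j + 1)) + R.m * x
    have hfi : f i ≤ R.n := (hf hi).trans hN
    have hfj : f (j + 1) ≤ R.n := (hf (by omega)).trans hN
    have h1 : aN R (f i) ≤ aN R (f (j + 1)) + Lb := by
      have h2 : aN R (f j) ≤ aN R (f (j + 1)) := aN_mono hP (hf (Nat.le_succ j)) (by omega)
      have := Q.hLb
      omega
    have h2 : R.m * aN R (f i) + R.m * Mu ≤ R.m * aN R (f (j + 1)) + R.m * x := by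
      rw [← Nat.mul_add, ← Nat.mul_add]
      exact Nat.mul_le_mul_left _ (by have := H.xL; omega)
    rw [lev_a hP (i := f i) (by omega), lev_a hP (i := f (j + 1)) (by omega)]
    have h3 := H.Mu8
    omega
  · show R.C.rk (f i) + R.m * x ≤ R.C.rf (f i)
    have hfi : f i ≤ R.n := (hf hi).trans hN
    unfold isKap at hri
    have ui : R.m * kN R (f i) + R.m * x ≤ R.m * fN R (f i) := by
      rw [← Nat.mul_add]
      exact Nat.mul_le_mul_left _ (by omega)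
    rw [lev_k hP (i := f i) (by omega), lev_f hP (i := f i) (by omega)]
    omega

theorem kap_not (hP : R.Path p) (hf : Monotone f) {t : ℕ} (ht : f t ≤ R.n) (h : isKap R x Wd (f t)) :
    ¬ (R.C.re f hf).rf t ≤ R.m * x + (R.C.re f hf).rk t := by
  obtain ⟨_, k1, f1, _⟩ := lv_of hP x hf (t := t) (by omega)
  rw [k1, f1]
  unfold isKap at h
  have h1 : R.m * kN R (f t) + R.m * x + R.m ≤ R.m * fN R (f t) := by
    rw [← Nat.mul_add, ← Nat.mul_succ]
    exact Nat.mul_le_mul_left _ (by omega)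
  have := hP.m1
  omega

end pair

section step

variable {f : ℕ → ℕ} (hf : Monotone f) {N cφ cc x M s c0 g pv b' Mu Wd Kr Lb j i : ℕ} {ε : ℝ} {b0 : ℕ}

/-- bounds of the collisions -/
structure ColN (R : Run Ω τ υ) (p : Run.Num) (K ε : ℝ) {f : ℕ → ℕ} (hf : Monotone f) (x M s N g Wd j i : ℕ) (e1 w : ℝ)
    (K' : ℕ) : Prop where
  hK : K ≤ K'
  he1 : Real.sqrt (((2 * K' + 3 : ℕ) : ℝ) * ((2 * (K' + 1 : ℕ) + 1) * ε)) ≤ e1
  he2 : 10 * ε ≤ e1
  w0 : 0 ≤ w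
  /-- the direction, phi regime: given the cell and the digits of the slope -/
  cYp : isPhi R x Wd (f (j + 1)) → MIC.cY R.Q (R.C.re f hf) (R.m * x) (j + 1) g ≤ w
  /-- the direction, kappa regime: given the cell -/
  cYk : isKap R x Wd (f (j + 1)) → H931.cYc R.Q (R.C.re f hf) (R.m * x) (j + 1) g ≤ w
  /-- type (ii) step of the kappa regime -/
  cW : isKap R x Wd (f (j + 1)) → R.C.rk (f (nx N (fun i => aN R (f i)) (j + 1))) + s * R.m <
        R.rI (f (nx N (fun i => aN R (f i)) (j + 1))) →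
      ∀ fr ≤ j + 1, R.C.rk (f fr) = R.C.rk (f (j + 1)) → MIC.cW R.Q (R.C.re f hf) (R.m * x) fr (j + 1) i (2 * g) ≤ w

/-- the error of a step -/
noncomputable def errN (R : Run Ω τ υ) {f : ℕ → ℕ} (hf : Monotone f) (cc c0 g x pv b' j i : ℕ) (e1 w : ℝ) : ℝ :=
  cc * (c0 + 1) + cc * R.m * (2 * e1 + 2 * w) + (2 : ℝ) ^ (cc * (g + c0 + 1)) *
    (Real.sqrt (I1N R.Q (R.C.re f hf) (R.m * x) pv j i) + Real.sqrt (I2N R.Q (R.C.re f hf) (R.m * x) b' j i))

theorem cT_N (h : R.Ok p K c' g' gU) {q : ℕ} (nq : Nq R p ε b0 x M (f (j + 1)) q) (hmg : R.m ≤ g) {e1 : ℝ} {K' : ℕ}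
    (hK' : K ≤ K') (he1 : Real.sqrt (((2 * K' + 3 : ℕ) : ℝ) * ((2 * (K' + 1 : ℕ) + 1) * ε)) ≤ e1) :
    cT R.Q (R.C.re f hf) (R.m * x) (j + 1) g ≤ e1 := by
  have hε0 : 0 ≤ ε := (Vale.Agent.P127.U.Mic.colp_nonneg R.Q _ _).trans nq.good.time
  refine (H931.cT_m h hf nq hmg hK').trans (le_trans (Real.sqrt_le_sqrt ?_) he1)
  refine mul_le_mul_of_nonneg_left ?_ (by positivity)
  have h2 : (1 : ℝ) ≤ 2 * ((K' + 1 : ℕ) : ℝ) + 1 := by
    have : (0 : ℝ) ≤ ((K' + 1 : ℕ) : ℝ) := Nat.cast_nonneg _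
    linarith
  nlinarith

include hf in
/-- phi regime -/
theorem nstep_phi (h : R.Ok p K c' g' gU) (hN : f N ≤ R.n) (hΦ : PhiC cφ) (hcφ : cφ ≤ cc)
    (H : NumN R p K cc x M s c0 g pv b' Mu Wd Kr Lb) {γ : ℕ → Prop}
    (D : Sdat N γ (fun i => aN R (f i)) (fun i => RN R x (f i)))
    (Q : PairN R x N f Wd Kr Lb j i) (hadv : Adv (R.C.re f hf) R.m (R.m * x) j)
    {q : ℕ} (nq : Nq R p ε b0 x M (f (j + 1)) q) {e1 w : ℝ} {K' : ℕ} (Co : ColN R p K ε hf x M s N g Wd j i e1 w K')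
    (hr : isPhi R x Wd (f j)) :
    MIC.SatN R.Q (R.C.re f hf) (R.m * x) j i (wt (R.C.re f hf) (R.m * x) j * Real.log 2 -
      errN R hf cc c0 g x pv b' j i e1 w) := by
  have hP := h.pth
  obtain ⟨hreg1, hreg0, hlph, hr1⟩ := phi_reg hP hf hN H D Q hr
  have hm1 := hP.m1
  have hε0 : 0 ≤ ε := (Vale.Agent.P127.U.Mic.colp_nonneg R.Q _ _).trans nq.good.time
  have he10 : 0 ≤ e1 := le_trans (by positivity) Co.he2
  have hgg := H.hg
  have hmg : R.m ≤ g := by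
    have h1 : R.m ≤ (M + s + 1) * R.m := Nat.le_mul_of_pos_left _ (by omega)
    omega
  have hMg : (M + 1) * R.m ≤ g := by
    have h1 : (M + 1) * R.m ≤ (M + s + 1) * R.m := Nat.mul_le_mul_right _ (by omega)
    omega
  have hT := cT_N hf h nq hmg Co.hK Co.he1
  have hF : cF R.Q (R.C.re f hf) (R.m * x) (j + 1) g ≤ e1 :=
    (H931.cF_m h hf nq (by unfold isPhi at hr1; have := H.W1; omega) H.hx hMg Co.hK).trans Co.he1
  have hs := hΦ R.Q (R.C.re f hf) K c0 R.m g pv (R.m * x) b' j i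
    (I1N R.Q (R.C.re f hf) (R.m * x) pv j i) (I2N R.Q (R.C.re f hf) (R.m * x) b' j i)
    (fun ω hω => Pth.re_ok f hf (h.ok ω hω)) hreg1 hreg0 hadv H.b8 H.hpv H.bp H.Kc hm1 hmg
    ((Nat.mul_le_mul_right _ hcφ).trans H.hμ)
    (by unfold I1N; rw [LDk_phi hlph]; exact le_rfl)
    (by unfold I2N; rw [LDk_phi hlph]; exact le_rfl)
  refine hs.mono ?_
  have hw0 := Co.w0
  exact nstep_num (by exact_mod_cast hcφ) (by exact_mod_cast hm1) hw0 he10 hT (by linarith) (Co.cYp hr1)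
    (pow_le_pow_right₀ (by norm_num) (Nat.mul_le_mul_right _ hcφ)) (by positivity) (Nat.cast_nonneg _) (Nat.cast_nonneg _)

include hf in
/-- kappa regime -/
theorem nstep_kap (h : R.Ok p K c' g' gU) (hN : f N ≤ R.n)
    (H : NumN R p K cc x M s c0 g pv b' Mu Wd Kr Lb) {γ : ℕ → Prop}
    (D : Sdat N γ (fun i => aN R (f i)) (fun i => RN R x (f i)))
    (Q : PairN R x N f Wd Kr Lb j i) (hadv : Adv (R.C.re f hf) R.m (R.m * x) j)
    (hbW : ∀ t, j ≤ t → t ≤ j + 1 → isKap R x Wd (f t) → R.C.rk (f t) + b' ≤ R.C.rf (f t))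
    (nq : Nq R p ε b0 x M (f (j + 1)) (f (nx N (fun i => aN R (f i)) (j + 1)))) {e1 w : ℝ} {K' : ℕ}
    (Co : ColN R p K ε hf x M s N g Wd j i e1 w K') (hr : isKap R x Wd (f j)) :
    MIC.SatN R.Q (R.C.re f hf) (R.m * x) j i (wt (R.C.re f hf) (R.m * x) j * Real.log 2 -
      errN R hf cc c0 g x pv b' j i e1 w) := by
  have hP := h.pth
  obtain ⟨hr1, fr, y, hfr1, hkfr, hy1, hy2, hfr3, r8, a8, hctx⟩ := kap_ctx h hf hN H D Q hadv hbW hr
  have hji := Q.hji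
  have hfi : f i ≤ R.n := (hf Q.hi).trans hN
  have hri := kap_same hP hf hN D (by have := H.W1; omega) (by omega : j ≤ i) Q.hi hr Q.hmix
  have hki := kap_not hP hf hfi hri
  have hk1 := kap_not hP hf ((hf (by have := Q.hi; omega : j + 1 ≤ N)).trans hN) hr1
  have hm1 := hP.m1
  have hε0 : 0 ≤ ε := (Vale.Agent.P127.U.Mic.colp_nonneg R.Q _ _).trans nq.good.time
  have he10 : 0 ≤ e1 := le_trans (by positivity) Co.he2
  have hgg := H.hg
  have hmg : R.m ≤ g := by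
    have h1 : R.m ≤ (M + s + 1) * R.m := Nat.le_mul_of_pos_left _ (by omega)
    omega
  have hT := cT_N hf h nq hmg Co.hK Co.he1
  have hμ8 : 800 * (g + c0 + 1) ≤ R.C.μ := (Nat.mul_le_mul_right _ H.cc8).trans H.hμ
  have hI1 := (I1N_kap (P := R.Q) (pv := pv) hk1 hki).le
  have hI2 := (I2N_kap (P := R.Q) (b' := b') hk1 hki).le
  have hpw : (2 : ℝ) ^ (800 * (g + c0 + 1)) ≤ 2 ^ (cc * (g + c0 + 1)) :=
    pow_le_pow_right₀ (by norm_num) (Nat.mul_le_mul_right _ H.cc8)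
  have h8c : (800 : ℝ) ≤ cc := by exact_mod_cast H.cc8
  have hw0 := Co.w0
  have hmR : (1 : ℝ) ≤ R.m := by exact_mod_cast hm1
  have hA0 : (0 : ℝ) ≤ Real.sqrt (I1N R.Q (R.C.re f hf) (R.m * x) pv j i) +
      Real.sqrt (I2N R.Q (R.C.re f hf) (R.m * x) b' j i) := by positivity
  by_cases hty : R.rI (f (nx N (fun i => aN R (f i)) (j + 1))) ≤
      R.C.rk (f (nx N (fun i => aN R (f i)) (j + 1))) + s * R.m
  · have hL : cL R.Q (R.C.re f hf) (R.m * x) fr (j + 1) i (2 * g) ≤ e1 := by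
      have hKc0 : K ≤ 2 ^ c0 := by
        have := H.Kc
        have := H.K1
        linarith
      refine (H931.cL_mf h hf (js := y) hfr1 hkfr nq (by unfold isKap at hr1; have := H.W1; omega) hty H.sx hy1 hy2 hfi
        r8 a8 ?_ H.K1 hKc0 H.hg (by omega)).trans Co.he2
      have h1 : R.m * Mu ≤ R.m * x := Nat.mul_le_mul_left _ H.Mux
      have h2 := H.Mu8
      omega
    have hs := H931.psatKapC R.Q (R.C.re f hf) K c0 R.m g pv (R.m * x) b' fr j y i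
      (I1N R.Q (R.C.re f hf) (R.m * x) pv j i) (I2N R.Q (R.C.re f hf) (R.m * x) b' j i)
      hctx hadv H.Kc hm1 hmg hμ8 H.hpv hfr3 hki hI1 hI2
    refine hs.mono ?_
    exact nstep_num h8c hmR hw0 he10 hT (by linarith) (Co.cYk hr1) hpw hA0 (Nat.cast_nonneg _) (by norm_num)
  · have hL := Co.cW hr1 (by omega) fr hfr1 hkfr
    have hs := H931.psatKapWC R.Q (R.C.re f hf) K c0 R.m g pv (R.m * x) b' fr j y i
      (I1N R.Q (R.C.re f hf) (R.m * x) pv j i) (I2N R.Q (R.C.re f hf) (R.m * x) b' j i)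
      hctx hadv H.Kc hm1 hmg hμ8 H.hpv hfr3 hki hI1 hI2
    refine hs.mono ?_
    exact nstep_num h8c hmR hw0 he10 hT (by linarith) (Co.cYk hr1) hpw hA0 (Nat.cast_nonneg _) (by norm_num)

/-- the good time step, any set `γ` of good steps -/
theorem nq_g (hP : R.Path p) {f : ℕ → ℕ} (hf : Monotone f) {N : ℕ} (hfN : f N ≤ R.n) {x M : ℕ} {γ : ℕ → Prop} {ε : ℝ} {b0 : ℕ}
    (hγ : ∀ j, γ j → R.Good p ε b0 (f j))
    (D : Sdat N γ (fun i => aN R (f i)) (fun i => RN R x (f i))) {E : Finset ℕ}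
    (hE : ∀ i < N, aN R (f (i + 1)) = aN R (f i) + 1 → ¬ γ i → i ∈ E) {i e j : ℕ} (he : e ≤ N)
    (hj : j ∈ CS M N γ (fun i => aN R (f i)) (fun i => RN R x (f i)) i e)
    (hX : j ∉ XN M N (fun i => aN R (f i)) (fun i => RN R x (f i)) E) :
    Nq R p ε b0 x M (f (j + 1)) (f (nx N (fun i => aN R (f i)) (j + 1))) := by
  obtain ⟨h1, h2, h3, h4, h5⟩ := H931.nx_counted D hE he hj hX
  have h6 : f (nx N (fun i => aN R (f i)) (j + 1)) ≤ R.n := (hf (by omega)).trans hfN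
  have h7 : f (j + 1) ≤ f (nx N (fun i => aN R (f i)) (j + 1)) := hf (by omega)
  refine ⟨h7, ?_, hγ _ h3, ?_, h5⟩
  · refine lt_of_le_of_ne h6 fun e1 => ?_
    have h8 := D.ga _ h2 h3
    have h9 : f (nx N (fun i => aN R (f i)) (j + 1) + 1) = R.n :=
      le_antisymm ((hf (by omega)).trans hfN) (by
        have := hf (Nat.le_succ (nx N (fun i => aN R (f i)) (j + 1)))
        rw [← e1]
        exact this)
    rw [h9, e1] at h8
    omega
  · rw [lev_a hP (by omega), lev_a hP (by omega)]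
    rw [h4]

include hf in
/-- **the N-step of a counted old step**, all regimes -/
theorem nstep (h : R.Ok p K c' g' gU) (hN : f N ≤ R.n) (hΦ : PhiC cφ) (hcφ : cφ ≤ cc)
    (H : NumN R p K cc x M s c0 g pv b' Mu Wd Kr Lb) {γ : ℕ → Prop} (hγ : ∀ j, γ j → R.Good p ε b0 (f j))
    (D : Sdat N γ (fun i => aN R (f i)) (fun i => RN R x (f i))) {E : Finset ℕ}
    (hE : ∀ i < N, aN R (f (i + 1)) = aN R (f i) + 1 → ¬ γ i → i ∈ E) {i0 e : ℕ} (he : e ≤ N)
    (hj : j ∈ CS M N γ (fun i => aN R (f i)) (fun i => RN R x (f i)) i0 e)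
    (hX : j ∉ XN M N (fun i => aN R (f i)) (fun i => RN R x (f i)) E) (Q : PairN R x N f Wd Kr Lb j i)
    (hbW : ∀ t, j ≤ t → t ≤ j + 1 → isKap R x Wd (f t) → R.C.rk (f t) + b' ≤ R.C.rf (f t))
    {e1 w : ℝ} {K' : ℕ} (Co : ColN R p K ε hf x M s N g Wd j i e1 w K') :
    MIC.SatN R.Q (R.C.re f hf) (R.m * x) j i (full (R.m * Real.log 2) (fun i => aN R (f i)) (fun i => RN R x (f i)) j -
      errN R hf cc c0 g x pv b' j i e1 w) := by
  have hP := h.pth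
  have hji := Q.hji
  have hi := Q.hi
  have nq := nq_g hP hf hN hγ D hE he hj hX
  have hadv : Adv (R.C.re f hf) R.m (R.m * x) j := H931.adv_of hP x hf (by omega) D he hj
  have hfull := H931.full_eq hP x hf (j := j) ((hf (by omega : j + 1 ≤ N)).trans (by omega))
  have e1 : full (R.m * Real.log 2) (fun i => aN R (f i)) (fun i => RN R x (f i)) j =
      wt (R.C.re f hf) (R.m * x) j * Real.log 2 := hfull
  rw [e1]
  rcases reg_or (Q.hmix j le_rfl (by omega)) with hr | hr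
  · exact nstep_phi hf h hN hΦ hcφ H D Q hadv nq Co hr
  · exact nstep_kap hf h hN H D Q hadv hbW nq Co hr

end step

end

end Vale.Agent.P106.U.H833
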