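import Vale.Agent.P106.U.H812.RecS
import Vale.Agent.P106.U.H833.Zon
import Vale.Agent.P106.U.H833.WinS

/-!
# P106 / U / H833 : levels of a window of the kind deep phi over the compressed path (helper833)

`R : S3.Run`, `f = ix R i0`, `N = nz R i0`, `a = az R i0`, `r = rz R i0`.  `PhW R k` : phi regime at the record index `k`.

* `rn_phi`, `rf_of_RN` : in the phi regime the thickness is the precision of the own slope.
* `WP` : a window `[s, k)` with late state `w = lx N a Kr k`, phi regime at the record indices `f s ≤ t ≤ f w`.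
* `WP.of` : from a window (495's `WAt`) and the regime on the levels of the window.
* the facts: order of the indices, levels of `f j + 1` against `f (j + 1)`, `IsA`, gain and loss of the precisions.
-/

set_option autoImplicit false

namespace Vale.Agent.P106.U.H833

open Finset Vale.Agent.P127 Vale.Agent.P127.Stk
open Vale.Agent.P106.U.Cell
open Vale.Agent.P106.U.S3 (Run)
open Vale.Agent.P106.U.MIC (ix nz az rz bc ix_mono)
open Vale.Agent.P106.U.H118 (Sdat)
open Vale.Agent.P106.U.H812 (ix_le_n ix_le_J step_ix ix_strict ix_isA a_ix az_mono rz_mono)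
open Vale.Agent.P106.U.H823

section

variable {Ω : Type} [Fintype Ω] {τ υ : Type} {R : Run Ω τ υ} {p : Run.Num}

/-- phi regime at the record index `k` -/
def PhW (R : Run Ω τ υ) (k : ℕ) : Prop := R.C.rf k ≤ R.m * R.b1 + R.C.rk k

theorem rn_phi (hP : R.Path p) {k : ℕ} (hk : k ≤ R.n + p.J) (h : PhW R k) : RN R R.b1 k = fN R k := by
  unfold PhW at h
  rw [lev_k hP hk, lev_f hP hk] at h
  have h1 : R.m * fN R k ≤ R.m * (kN R k + R.b1) := by
    rw [Nat.mul_add]
    omega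
  have h2 := Nat.le_of_mul_le_mul_left h1 hP.m1
  unfold RN
  omega

/-- two indices of the phi regime with the same thickness have the same precision of the own slope -/
theorem rf_of_RN (hP : R.Path p) {k k' : ℕ} (hk : k ≤ R.n + p.J) (hk' : k' ≤ R.n + p.J) (h : PhW R k) (h' : PhW R k')
    (e : RN R R.b1 k = RN R R.b1 k') : R.C.rf k = R.C.rf k' := by
  rw [rn_phi hP hk h, rn_phi hP hk' h'] at e
  rw [lev_f hP hk, lev_f hP hk', e]

theorem a0N (hP : R.Path p) : aN R 0 = 0 := by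
  unfold aN
  rw [hP.a0, Nat.zero_div]

theorem one_le_of (hP : R.Path p) {k : ℕ} (h : aN R k ≠ 0) : 1 ≤ k := by
  rcases Nat.eq_zero_or_pos k with h5 | h5
  · exact absurd (by rw [h5]; exact a0N hP) h
  · exact h5

theorem sdat_rl {n : ℕ} {g : ℕ → Prop} {a r : ℕ → ℕ} (D : Sdat n g a r) {i j : ℕ} (hij : i ≤ j) (hj : j ≤ n) :
    r i ≤ r j ∧ r j ≤ r i + (j - i) := by
  induction j, hij using Nat.le_induction with
  | base => simp
  | succ j hij ih =>
    have h1 := ih (by omega)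
    rcases D.hr j (by omega) with h2 | ⟨h2, _⟩ <;> omega

/-- a window `[s, k)` and its late state `w` in the phi regime -/
structure WP (R : Run Ω τ υ) (i0 L1 L2 Kr s k w : ℕ) : Prop where
  sk : s < k
  kL : k ≤ s + L1
  kw : k < w
  wN : w < nz R i0
  wL : w < s + L2
  aw : az R i0 w = az R i0 k + Kr
  aw1 : az R i0 (w + 1) = az R i0 k + Kr + 1
  a1 : az R i0 s ≠ 0
  ph : ∀ t, ix R i0 s ≤ t → t ≤ ix R i0 w → PhW R t

section win

variable {i0 : ℕ} {g : ℕ → Prop} (hP : R.Path p) (D : Sdat (nz R i0) g (az R i0) (rz R i0))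

include hP D in
/-- **from a window** all of whose levels `[a s, a k + Lk]` satisfy `Pu` -/
theorem WP.of {Pu : ℕ → Prop} {L1 L2 Lk Kr s k : ℕ} (hKr : 0 < Kr) (hLk : Kr ≤ Lk) (hsk : s < k) (hkL : k ≤ s + L1)
    (hi1 : ∃ i1, k ≤ i1 ∧ i1 ≤ nz R i0 ∧ i1 ≤ s + L2 ∧ az R i0 k + Kr + 1 ≤ az R i0 i1)
    (hpu : ∀ z, az R i0 s ≤ z → z ≤ az R i0 k + Lk → Pu z) (hz : ∀ z, Pu z → z ≠ 0)
    (hph : ∀ t, 1 ≤ t → t ≤ R.n → Pu (aN R t) → PhW R t) : WP R i0 L1 L2 Kr s k (lx (nz R i0) (az R i0) Kr k) := by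
  obtain ⟨i1, q1, q2, q3, q4⟩ := hi1
  obtain ⟨w1, w2, w3, w4⟩ := lx_spec D q2 q1 hKr q4
  have hask : az R i0 s ≤ az R i0 k := D.am hsk.le (by omega)
  have h0 : az R i0 s ≠ 0 := hz _ (hpu _ le_rfl (by omega))
  refine ⟨hsk, hkL, w1, by omega, by omega, w3, by omega, h0, fun t t1 t2 => ?_⟩
  have e1 : aN R (ix R i0 s) ≤ aN R t := aN_mono hP t1 (t2.trans (ix_le_J R p i0 _))
  have e2 : aN R t ≤ aN R (ix R i0 (lx (nz R i0) (az R i0) Kr k)) := aN_mono hP t2 (ix_le_J R p i0 _)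
  have e3 : aN R (ix R i0 s) = az R i0 s := rfl
  have e4 : aN R (ix R i0 (lx (nz R i0) (az R i0) Kr k)) = az R i0 k + Kr := w3
  exact hph t (one_le_of hP (by omega)) (t2.trans (ix_le_n R i0 _)) (hpu _ (by omega) (by omega))

variable {L1 L2 Kr s k w : ℕ} (W : WP R i0 L1 L2 Kr s k w)

include hP W

/-- order of the indices -/
theorem WP.idx {j : ℕ} (hs : s ≤ j) (hj : j < k) : 1 ≤ ix R i0 s ∧ ix R i0 s ≤ ix R i0 j ∧
    ix R i0 j + 1 ≤ ix R i0 (j + 1) ∧ ix R i0 (j + 1) ≤ ix R i0 k ∧ ix R i0 k < ix R i0 w ∧ ix R i0 w ≤ R.n := by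
  have hkw := W.kw
  have hwN := W.wN
  refine ⟨one_le_of hP W.a1, ix_mono R i0 hs, ?_, ix_mono R i0 hj, ix_strict hP k w W.kw W.wN.le, ix_le_n R i0 w⟩
  exact ix_strict hP j (j + 1) (Nat.lt_succ_self j) (by omega)

/-- the late index is a time step -/
theorem WP.isA : R.IsA (ix R i0 w) := ix_isA hP W.wN (by rw [W.aw1, W.aw])

/-- time level of the late index -/
theorem WP.a_late : R.C.a (ix R i0 w) = R.C.a (ix R i0 k) + R.m * Kr := by
  rw [a_ix hP, a_ix hP, W.aw, Nat.mul_add]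

include D in
/-- time level of the late index against the beginning of the window -/
theorem WP.a_le : R.C.a (ix R i0 s) ≤ R.C.a (ix R i0 k) ∧ R.C.a (ix R i0 w) ≤ R.C.a (ix R i0 s) + R.m * (L1 + Kr) := by
  have h0 := W.sk
  have h1 := W.kL
  have h2 := W.kw
  have h3 := W.wN
  have h4 := D.al (i := s) (j := k) h0.le (by omega)
  have h5 := D.am (i := s) (j := k) h0.le (by omega)
  rw [a_ix hP, a_ix hP, a_ix hP, W.aw, ← Nat.mul_add]
  exact ⟨Nat.mul_le_mul_left _ h5, Nat.mul_le_mul_left _ (by omega)⟩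

/-- the index after `f j` has the levels of `f (j + 1)` -/
theorem WP.next {j : ℕ} (hs : s ≤ j) (hj : j < k) : R.C.a (ix R i0 j + 1) = R.C.a (ix R i0 (j + 1)) ∧
    R.C.rf (ix R i0 j + 1) = R.C.rf (ix R i0 (j + 1)) ∧ R.C.rk (ix R i0 j + 1) ≤ R.C.rk (ix R i0 (j + 1)) ∧
    aN R (ix R i0 j + 1) = az R i0 (j + 1) ∧ RN R R.b1 (ix R i0 j + 1) = rz R i0 (j + 1) := by
  obtain ⟨i1, i2, i3, i4, i5, i6⟩ := W.idx hP hs hj
  have hkw := W.kw
  have hwN := W.wN
  have hJ := hP.J1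
  have hjN : i0 + j < Cmp.Nc R R.b1 := by
    unfold nz at hwN
    omega
  have e1 := Cmp.same hP (x := R.b1) (j := i0 + j) hjN
  have e2 : aN R (ix R i0 (j + 1)) = aN R (ix R i0 j + 1) := e1.1
  have e3 : RN R R.b1 (ix R i0 (j + 1)) = RN R R.b1 (ix R i0 j + 1) := e1.2
  refine ⟨?_, ?_, R.C.hk i3, e2.symm, e3.symm⟩
  · rw [lev_a hP (by omega), lev_a hP (by omega), e2]
  · exact rf_of_RN hP (by omega) (by omega) (W.ph _ (by omega) (by omega)) (W.ph _ (by omega) (by omega)) e3.symm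

include D in
/-- loss of the precision of the own slope up to the late index -/
theorem WP.rf_le : R.C.rf (ix R i0 w) ≤ R.C.rf (ix R i0 s) + R.m * L2 := by
  have h1 := W.sk
  have h2 := W.kw
  have h3 := W.wN
  have h4 := W.wL
  have hJ := hP.J1
  have hs := ix_le_n R i0 s
  have hw := ix_le_n R i0 w
  have hsw : ix R i0 s ≤ ix R i0 w := ix_mono R i0 (by omega)
  have e1 := (sdat_rl D (i := s) (j := w) (by omega) (by omega)).2
  have e2 : rz R i0 w = fN R (ix R i0 w) := rn_phi hP (by omega) (W.ph _ hsw le_rfl)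
  have e3 : rz R i0 s = fN R (ix R i0 s) := rn_phi hP (by omega) (W.ph _ le_rfl hsw)
  rw [lev_f hP (i := ix R i0 w) (by omega), lev_f hP (i := ix R i0 s) (by omega)]
  have e4 : R.m * fN R (ix R i0 w) ≤ R.m * fN R (ix R i0 s) + R.m * L2 := by
    rw [← Nat.mul_add]
    exact Nat.mul_le_mul_left _ (by omega)
  omega

include D in
/-- **gain of the precision of the own slope** from the end of the window to the late index -/
theorem WP.rf_gain {Mu μ : ℕ} (hx : R.m * R.b1 ≤ p.B₁) (hMu : μ ≤ R.m * Mu) (hJ : p.J * Mu ≤ Kr) :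
    R.C.rf (ix R i0 k) + μ ≤ R.C.rf (ix R i0 w) := by
  have h1 := W.sk
  have h2 := W.kw
  have h3 := W.wN
  have hJ1 := hP.J1
  have hk := ix_le_n R i0 k
  have hw := ix_le_n R i0 w
  have hsk : ix R i0 s ≤ ix R i0 k := ix_mono R i0 (by omega)
  have hkw : ix R i0 k ≤ ix R i0 w := ix_mono R i0 (by omega)
  have e1 := advT hP (ix_mono R i0) (N := nz R i0) (ix_le_n R i0 _) D hx Mu k w (by omega) (by omega) (by
    have e : aN R (ix R i0 w) = az R i0 k + Kr := W.aw
    have e' : aN R (ix R i0 k) = az R i0 k := rfl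
    omega)
  rw [rn_phi hP (by omega) (W.ph _ hsk hkw), rn_phi hP (by omega) (W.ph _ (hsk.trans hkw) le_rfl)] at e1
  rw [lev_f hP (i := ix R i0 w) (by omega), lev_f hP (i := ix R i0 k) (by omega)]
  have e4 : R.m * fN R (ix R i0 k) + R.m * Mu ≤ R.m * fN R (ix R i0 w) := by
    rw [← Nat.mul_add]
    exact Nat.mul_le_mul_left _ (by omega)
  omega

include D in
/-- the same from the index after a step of the window -/
theorem WP.rf_gain1 {Mu μ j : ℕ} (hx : R.m * R.b1 ≤ p.B₁) (hMu : μ ≤ R.m * Mu) (hJ : p.J * Mu ≤ Kr) (hs : s ≤ j)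
    (hj : j < k) : R.C.rf (ix R i0 j + 1) + μ ≤ R.C.rf (ix R i0 w) := by
  obtain ⟨_, _, i3, i4, _, _⟩ := W.idx hP hs hj
  have h1 := R.C.hf (i3.trans i4)
  have h2 := W.rf_gain hP D hx hMu hJ
  omega

/-- the time level of a step of the window against the late index -/
theorem WP.a_gap {j : ℕ} (hs : s ≤ j) (hj : j < k) : R.C.a (ix R i0 j + 1) + R.m * Kr ≤ R.C.a (ix R i0 w) ∧
    aN R (ix R i0 w) = aN R (ix R i0 j + 1) + (az R i0 k + Kr - az R i0 (j + 1)) := by
  obtain ⟨_, _, i3, i4, i5, i6⟩ := W.idx hP hs hj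
  have h1 := R.C.ha (i3.trans i4)
  have h2 := W.a_late hP
  have h3 := (W.next hP hs hj).2.2.2.1
  have h4 := az_mono hP (i0 := i0) (j + 1) k hj (by have := W.kw; have := W.wN; omega)
  have h5 : aN R (ix R i0 w) = az R i0 k + Kr := W.aw
  exact ⟨by omega, by omega⟩

end win

end

end Vale.Agent.P106.U.H833
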