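import Vale.Agent.P106.U.H833.Comp
import Vale.Agent.P106.U.H652.Par

/-!
# P106 / U / H833 : composition over one cap, all constants chosen (helper833)

* `Cap` : everything that is needed for one cap at the scale `s` (`M0 = M s`, `M1 = M (s+1)`).
* `mic_par` : `H652.sum_par` for the potential `psi`.
-/

set_option autoImplicit false

namespace Vale.Agent.P106.U.H833

open Finset Vale.Agent.P127 Vale.Agent.P127.Stk Vale.Agent.P127.U.Cell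
open Vale.Agent.P106.U.H118 (Sdat CS full)

/-- **one cap** : `n` steps, levels `a`, `R` in blocks, good a-steps `g`; ray `l`, whole letter `Z` of the ray side, time
digits `tm`, letter `τ` of the cell, cells `C`; `err j` error of the step `j`, `u z` error of the `(V,Z)`-step of
the level `z`; `cN` nestedness, `cA` chain, `cJ` junction, `ch` heavy interval -/
structure Cap {Ω : Type} [Fintype Ω] (P : Law Ω) {Λ κ ζ τt δ α θ : Type} (n : ℕ) (g : ℕ → Prop) (a R : ℕ → ℕ)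
    (M0 M1 L1 L2 K0 : ℕ) (m : ℝ) (l : Ω → Λ) (Z : ℕ → Ω → ζ) (tm : ℕ → Ω → δ) (τ : ℕ → Ω → τt) (C : ℕ → Ω → κ)
    (A : ℕ → ℕ → ℕ → Ω → α) (Θ : ℕ → ℕ → Ω → θ) (err u : ℕ → ℝ) (T : Finset ℕ) (cN cA cJ ch cw δ₀ : ℝ) : Prop where
  hZ : ∀ i < n, Fn P (Z i) (Z (i + 1))
  hC : ∀ i ≤ n, Fn P (C i) (fun ω => (l ω, Z i ω))
  hτC : ∀ i ≤ n, Fn P (τ i) (C i)
  hτ : ∀ i < n, Fn P (τ i) (τ (i + 1))
  htm : ∀ i ≤ n, Fn P (tm i) (τ i)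
  err0 : ∀ j, 0 ≤ err j
  u0 : ∀ z, 0 ≤ u z
  uT : ∀ z, z ∉ T → u z = 0
  hN : ∀ i k, i ≤ k → k ≤ n → hc P (C i) (C k) ≤ cN
  light : ∀ i k i1, i ≤ k → k ≤ i + L1 → k ≤ i1 → i1 ≤ n → i1 ≤ i + L2 → a k + K0 ≤ a i1 →
    R k + K0 ≤ R i1 → ∃ s : ℕ → ℝ, (∀ j ∈ CS M0 n g a R i k, full m a R j - err j ≤ s j) ∧ (∀ j, 0 ≤ s j) ∧
      Wnd P n l Z τ C i k (A i k) (Θ i k) cA cJ s
  heavy : ∀ i i1, g i → i < i1 → i1 ≤ n → R i + M1 < R i1 →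
    m * (1 - δ₀) * ((R i1 : ℝ) - R i) - m * cw * ((a i1 : ℝ) - a i) -
      ∑ z ∈ Icc (a i) (a i + (R i1 - R i)), u z - ch - ∑ j ∈ Ico i i1, qc P l Z tm j ≤
      psi P l Z C i1 - psi P l Z C i

/-- **composition over one cap** -/
theorem mic_par {K ε cw : ℝ} (hK : 0 < K) (hε : 0 < ε) (hcw : 0 ≤ cw) (CJ CH : ℕ → ℝ)
    (hCJ : ∀ x, 0 ≤ CJ x) (hCH : ∀ x, 0 ≤ CH x) :
    ∃ (p : ℕ) (M : ℕ → ℕ) (δ0 e1 e3 : ℝ), 0 < p ∧ Monotone M ∧ 0 < δ0 ∧ 0 < e1 ∧ 0 < e3 ∧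
      ∀ (KK : ℕ → ℕ) (J0 : ℕ), ∃ (L1 L2 : ℕ → ℕ), (∀ s, 0 < L1 s ∧ L1 s ≤ L2 s) ∧
      ∀ c1 : ℝ, 0 ≤ c1 → ∃ m0 : ℝ, 1 ≤ m0 ∧ ∀ m : ℝ, m0 ≤ m → ∃ h0 : ℝ, 0 < h0 ∧ ∀ h : ℝ, h0 ≤ h →
        ∀ (n : ℕ) (g : ℕ → Prop) (a R : ℕ → ℕ), 0 < n → Sdat n g a R → g 0 →
        (∀ j, j + J0 ≤ n → R j + 1 ≤ R (j + J0)) → m * n ≤ K * h → m * ((R n : ℝ) - R 0) ≤ K * h →
        ∀ E : Finset ℕ, (∀ i < n, a (i + 1) = a i + 1 → ¬ g i → i ∈ E) → m * E.card ≤ e1 * h →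
        ∃ s < p, ∀ {Ω : Type} [Fintype Ω] (P : Law Ω) {Λ κ ζ τt δ α θ : Type} (l : Ω → Λ) (Z : ℕ → Ω → ζ)
          (tm : ℕ → Ω → δ) (τ : ℕ → Ω → τt) (C : ℕ → Ω → κ) (A : ℕ → ℕ → ℕ → Ω → α) (Θ : ℕ → ℕ → Ω → θ)
          (err u : ℕ → ℝ) (T : Finset ℕ) (cN cA cJ ch δ₀ : ℝ), 0 ≤ cN → 0 ≤ cA → 0 ≤ cJ → 0 ≤ ch → 0 ≤ δ₀ →
          cA + cN ≤ c1 → cJ + cN ≤ m * CJ (M s) → ch ≤ m * CH (M s) → δ₀ ≤ δ0 →
          Cap P n g a R (M s) (M (s + 1)) (L1 s) (L2 s) (KK (M s)) m l Z tm τ C A Θ err u T cN cA cJ ch cw δ₀ →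
          ∑ j ∈ range n, err j ≤ ε / 16 * h → ∑ j ∈ range n, qc P l Z tm j ≤ ε / 16 * h →
          ∑ z ∈ T, u z ≤ e3 * h →
          3 * m * ((a n : ℝ) - a 0) + m * ((R n : ℝ) - R 0) - ε * h - hc P (Z 0) (fun ω => (l ω, C 0 ω)) ≤
            mi P l (C n) (C 0) := by
  classical
  obtain ⟨p, M, δ0, e1, e3, q1, q2, q3, q4, q5, H⟩ := H652.sum_par hK hε hcw CJ CH hCJ hCH
  refine ⟨p, M, δ0, e1, e3, q1, q2, q3, q4, q5, ?_⟩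
  intro KK J0
  obtain ⟨L1, L2, q6, H⟩ := H KK J0
  refine ⟨L1, L2, q6, ?_⟩
  intro c1 hc1
  obtain ⟨m0, q7, H⟩ := H c1 hc1
  refine ⟨m0, q7, ?_⟩
  intro m hm
  obtain ⟨h0, r1, H⟩ := H m hm
  refine ⟨h0, r1, ?_⟩
  intro h hh n g a R hn D g0 hF hnK hrK E hE hEc
  obtain ⟨s, hs, H⟩ := H h hh n g a R hn D g0 hF hnK hrK E hE hEc
  refine ⟨s, hs, ?_⟩
  intro Ω _ P Λ κ ζ τt δ α θ l Z tm τ C A Θ err u T cN cA cJ ch δ₀ hcN hcA hcJ hch hδ₀ k1 k2 k3 k4 W s1 s2 s3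
  have H1 := H (psi P l Z C) err (qc P l Z tm) u (cJ + cN) ch δ₀ (by positivity) hch hδ₀ k2 k3 k4 W.err0 W.u0 T
    W.uT s1 s2 s3
    (by
      intro i k i1 h1 h2 h3 h4 h5 h6 h7
      obtain ⟨s', t1, t2, t3⟩ := W.light i k i1 h1 h2 h3 h4 h5 h6 h7
      have h8 := win_cap P l (tm := tm) W.hZ W.hC W.hτC W.hτ W.htm W.hN h1 (by omega) t3
      have hsub : CS (M s) n g a R i k ⊆ Ico i k := by
        intro j hj
        rw [Finset.mem_Ico]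
        exact (H118.mem_CS.1 hj).1
      have h9 : ∑ j ∈ CS (M s) n g a R i k, (full m a R j - err j) ≤ ∑ j ∈ Ico i k, s' j :=
        (Finset.sum_le_sum t1).trans
          (Finset.sum_le_sum_of_subset_of_nonneg hsub fun j _ _ => t2 j)
      have h10 : (cA + cN) * ((k : ℝ) - i) ≤ c1 * ((k : ℝ) - i) := by
        refine mul_le_mul_of_nonneg_right k1 ?_
        have : (i : ℝ) ≤ k := by exact_mod_cast h1
        linarith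
      linarith)
    (by
      intro i k h1 h2
      have h8 := triv_cap P l (tm := tm) W.hZ W.hC W.hτC W.hτ W.htm W.hN h1 h2
      linarith)
    W.heavy
  have h4 := psi_total P l Z C n (fn_chain P W.hZ (Nat.zero_le n) le_rfl) (W.hC n le_rfl)
  linarith

end Vale.Agent.P106.U.H833
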