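import Vale.Agent.P106.U.H833.Near

/-!
# P106 / U / H833 : the potential `ψ` (helper833)

`C i` the cells (single level, approximately nested), `T i` the path (exactly nested, `C i` a function of
`(l, T i)`), `τ i` the part of the path contained in the cell.

* `psi P l T C i = H(C i) - H(T i | l)`; `psi_sub` : for `i ≤ k`,
  `ψ k - ψ i = H(C k | C i) - H(C i | C k) - H(T k | l, T i)`.
* `psi_total` : `ψ n - ψ 0 - H(T 0 | l, C 0) ≤ I(l ; C n | C 0)`.
* `psi_triv` : `- H(C i | C k) - H(T k | l, T i, τ k) ≤ ψ k - ψ i`.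
* `psi_win` : light window `[i, k]`, positions `A j` read at a later time, letter `Θ` of the later step.
* `psi_rise` : the RISE lemma in terms of `ψ`.
-/

set_option autoImplicit false

namespace Vale.Agent.P106.U.H833

open Finset Vale.Agent.P127 Vale.Agent.P127.Stk Vale.Agent.P127.U.Cell
open Vale.Agent.P106.U.H118 (two two_supp two_hc two_hc')

section

variable {Ω : Type} [Fintype Ω] (P : Law Ω) {Λ κ τT : Type*}

/-- the potential -/
noncomputable def psi (l : Ω → Λ) (T : ℕ → Ω → τT) (C : ℕ → Ω → κ) (i : ℕ) : ℝ :=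
  P.H (C i) - hc P (T i) l

/-- differences of the potential -/
theorem psi_sub (l : Ω → Λ) (T : ℕ → Ω → τT) (C : ℕ → Ω → κ) {i k : ℕ} (hT : Fn P (T i) (T k)) :
    psi P l T C k - psi P l T C i =
      hc P (C k) (C i) - hc P (C i) (C k) - hc P (T k) (fun ω => (l ω, T i ω)) := by
  have h1 : P.H (fun ω => (C k ω, C i ω)) = P.H (fun ω => (C i ω, C k ω)) := by
    refine P.H_congr fun ω ω' => ?_
    simp only [Prod.mk.injEq]
    tauto
  have h2 : hc P (T k) l = hc P (T i) l + hc P (T k) (fun ω => (l ω, T i ω)) := by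
    have h3 := hc_pair P (T i) (T k) l
    have h4 : hc P (fun ω => (T i ω, T k ω)) l = hc P (T k) l :=
      hc_congr P
        (fun ω ω' p p' e => by
          simp only [Prod.mk.injEq] at e
          exact Prod.ext (hT ω ω' p p' e.1) e.1)
        (fun ω ω' _ _ e => by
          simp only [Prod.mk.injEq] at e
          exact e.1.2)
        (fun _ _ _ _ e => e) (fun _ _ _ _ e => e)
    have h5 : hc P (T k) (fun ω => (T i ω, l ω)) = hc P (T k) (fun ω => (l ω, T i ω)) :=
      hc_congr P (fun _ _ _ _ e => congrArg Prod.fst e) (fun _ _ _ _ e => congrArg Prod.fst e)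
        (fun ω ω' _ _ e => by
          simp only [Prod.mk.injEq] at e ⊢
          exact ⟨e.2, e.1⟩)
        (fun ω ω' _ _ e => by
          simp only [Prod.mk.injEq] at e ⊢
          exact ⟨e.2, e.1⟩)
    linarith
  unfold psi
  rw [h2]
  unfold hc at *
  rw [h1]
  ring

/-- the total -/
theorem psi_total (l : Ω → Λ) (T : ℕ → Ω → τT) (C : ℕ → Ω → κ) (n : ℕ) (hT : Fn P (T 0) (T n))
    (hC : Fn P (C n) (fun ω => (l ω, T n ω))) :
    psi P l T C n - psi P l T C 0 - hc P (T 0) (fun ω => (l ω, C 0 ω)) ≤ mi P l (C n) (C 0) := by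
  rw [psi_sub P l T C hT]
  have a1 : mi P l (C n) (C 0) = hc P (C n) (C 0) - hc P (C n) (fun ω => (l ω, C 0 ω)) := by
    rw [mi_symm]; rfl
  have a2 : hc P (C n) (fun ω => (l ω, C 0 ω)) ≤ hc P (T n) (fun ω => (l ω, C 0 ω)) := by
    refine hc_mono_left P ?_
    intro ω ω' p p' e
    simp only [Prod.mk.injEq] at e
    exact hC ω ω' p p' (Prod.ext e.2.1 e.1)
  have a3 := hc_le_add P (T n) (T 0) (fun ω => (l ω, C 0 ω))
  have a4 : hc P (T n) (fun ω => (T 0 ω, (l ω, C 0 ω))) ≤ hc P (T n) (fun ω => (l ω, T 0 ω)) :=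
    hc_mono_right P _ fun ω ω' _ _ e => by
      simp only [Prod.mk.injEq] at e ⊢
      exact ⟨e.2.1, e.1⟩
  have a5 := hc_nonneg P (C 0) (C n)
  linarith

variable {τt θ α : Type*}

/-- the cell knows the letter `τ k` of the path -/
theorem psi_ge (l : Ω → Λ) (T : ℕ → Ω → τT) (C : ℕ → Ω → κ) (τk : Ω → τt) {i k : ℕ}
    (hT : Fn P (T i) (T k)) (hCi : Fn P (C i) (fun ω => (l ω, T i ω))) (hτC : Fn P τk (C k)) :
    hc P (C k) (fun ω => (τk ω, C i ω)) - hc P (C i) (C k) -
        hc P (T k) (fun ω => (τk ω, (l ω, T i ω))) ≤ psi P l T C k - psi P l T C i := by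
  rw [psi_sub P l T C hT]
  have h1 : hc P (C k) (C i) = hc P τk (C i) + hc P (C k) (fun ω => (τk ω, C i ω)) := by
    rw [← hc_pair P τk (C k) (C i)]
    refine hc_congr P ?_ ?_ (fun ω ω' _ _ e => e) (fun ω ω' _ _ e => e)
    · intro ω ω' _ _ e
      simp only [Prod.mk.injEq] at e
      exact e.1.2
    · intro ω ω' p p' e
      simp only [Prod.mk.injEq] at e
      exact Prod.ext (hτC ω ω' p p' e.1) e.1
  have h2 : hc P τk (fun ω => (l ω, T i ω)) ≤ hc P τk (C i) := hc_mono_right P τk hCi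
  have h3 := hc_le_add P (T k) τk (fun ω => (l ω, T i ω))
  linarith

/-- **trivial piece** -/
theorem psi_triv (l : Ω → Λ) (T : ℕ → Ω → τT) (C : ℕ → Ω → κ) (τk : Ω → τt) {i k : ℕ}
    (hT : Fn P (T i) (T k)) (hCi : Fn P (C i) (fun ω => (l ω, T i ω))) (hτC : Fn P τk (C k)) :
    - hc P (C i) (C k) - hc P (T k) (fun ω => (τk ω, (l ω, T i ω))) ≤
      psi P l T C k - psi P l T C i := by
  have h := psi_ge P l T C τk hT hCi hτC
  have h1 := hc_nonneg P (C k) (fun ω => (τk ω, C i ω))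
  linarith

/-- **light window** `[i, k]` -/
theorem psi_win (l : Ω → Λ) (T : ℕ → Ω → τT) (C : ℕ → Ω → κ) (τk : Ω → τt) (Θ : Ω → θ)
    (A : ℕ → Ω → α) {i k : ℕ} (hik : i ≤ k) {cC cJ : ℝ} {s c ν : ℕ → ℝ}
    (hT : Fn P (T i) (T k)) (hCi : Fn P (C i) (fun ω => (l ω, T i ω))) (hτC : Fn P τk (C k))
    (hτΘ : Fn P τk Θ)
    (hCC : hc P (C i) (C k) ≤ cC)
    (hJ : hc P (A k) (fun ω => (Θ ω, C k ω)) ≤ cJ)
    (hA : ∀ j, i ≤ j → j < k → hc P (A j) (fun ω => (A (j + 1) ω, Θ ω)) ≤ c j)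
    (hν : ∀ j, i ≤ j → j < k → hc P (C i) (C (j + 1)) ≤ ν j)
    (hs : ∀ j, i ≤ j → j < k → s j ≤ hc P (A (j + 1)) (fun ω => (A j ω, (C (j + 1) ω, Θ ω)))) :
    ∑ j ∈ Ico i k, (s j - c j - ν j) - cJ - cC - hc P (T k) (fun ω => (τk ω, (l ω, T i ω))) ≤
      psi P l T C k - psi P l T C i := by
  have h0 := psi_ge P l T C τk hT hCi hτC
  set Y : Ω → κ × θ := fun ω => (C i ω, Θ ω) with hY
  have h1 : hc P (C k) Y ≤ hc P (C k) (fun ω => (τk ω, C i ω)) := by
    refine hc_mono_right P _ fun ω ω' p p' e => ?_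
    have e1 := congrArg Prod.fst e
    have e2 := congrArg Prod.snd e
    exact Prod.ext (hτΘ ω ω' p p' e2) e1
  have h2 : hc P (A k) Y ≤ hc P (C k) Y + hc P (A k) (fun ω => (Θ ω, C k ω)) := by
    have h3 := hc_le_add P (A k) (C k) Y
    have h4 : hc P (A k) (fun ω => (C k ω, Y ω)) ≤ hc P (A k) (fun ω => (Θ ω, C k ω)) := by
      refine hc_mono_right P _ fun ω ω' _ _ e => ?_
      simp only [hY, Prod.mk.injEq] at e ⊢
      exact ⟨e.2.2, e.1⟩
    linarith
  -- the chain of the positions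
  have h3 : ∑ j ∈ Ico i k, (s j - c j - ν j) ≤ hc P (A k) Y := by
    have key : ∀ k, i ≤ k → (∀ j, i ≤ j → j < k →
        hc P (A j) (fun ω => (A (j + 1) ω, Θ ω)) ≤ c j ∧ hc P (C i) (C (j + 1)) ≤ ν j ∧
        s j ≤ hc P (A (j + 1)) (fun ω => (A j ω, (C (j + 1) ω, Θ ω)))) →
        ∑ j ∈ Ico i k, (s j - c j - ν j) ≤ hc P (A k) Y := by
      intro k hk
      induction k, hk using Nat.le_induction with
      | base =>
        intro _
        simpa using hc_nonneg P (A i) Y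
      | succ k hk ih =>
        intro h
        rw [Finset.sum_Ico_succ_top hk]
        have g1 := ih fun j hj hj' => h j hj (by omega)
        obtain ⟨g2, g3, g4⟩ := h k hk (Nat.lt_succ_self k)
        -- H(A_(k+1)|Y) - H(A_k|Y) = H(A_(k+1)|A_k,Y) - H(A_k|A_(k+1),Y)
        have g5 : hc P (A (k + 1)) Y - hc P (A k) Y =
            hc P (A (k + 1)) (fun ω => (A k ω, Y ω)) - hc P (A k) (fun ω => (A (k + 1) ω, Y ω)) := by
          have f1 := hc_pair P (A k) (A (k + 1)) Y
          have f2 := hc_pair P (A (k + 1)) (A k) Y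
          have f3 : hc P (fun ω => (A k ω, A (k + 1) ω)) Y = hc P (fun ω => (A (k + 1) ω, A k ω)) Y :=
            hc_congr P
              (fun ω ω' _ _ e => by
                simp only [Prod.mk.injEq] at e ⊢
                exact ⟨e.1.2, e.1.1⟩)
              (fun ω ω' _ _ e => by
                simp only [Prod.mk.injEq] at e ⊢
                exact ⟨e.1.2, e.1.1⟩)
              (fun _ _ _ _ e => e) (fun _ _ _ _ e => e)
          linarith
        have g6 : hc P (A k) (fun ω => (A (k + 1) ω, Y ω)) ≤ c k := by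
          refine le_trans (hc_mono_right P _ fun ω ω' _ _ e => ?_) g2
          simp only [hY, Prod.mk.injEq] at e ⊢
          exact ⟨e.1, e.2.2⟩
        have g7 : s k - ν k ≤ hc P (A (k + 1)) (fun ω => (A k ω, Y ω)) := by
          have f1 := hc_le_near P (A (k + 1)) (C i) (fun ω => (A k ω, (C (k + 1) ω, Θ ω)))
          have f2 : hc P (C i) (fun ω => (A k ω, (C (k + 1) ω, Θ ω))) ≤ hc P (C i) (C (k + 1)) :=
            hc_mono_right P _ fun ω ω' _ _ e => by
              simp only [Prod.mk.injEq] at e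
              exact e.2.1
          have f3 : hc P (A (k + 1)) (fun ω => ((A k ω, (C (k + 1) ω, Θ ω)), C i ω)) ≤
              hc P (A (k + 1)) (fun ω => (A k ω, Y ω)) :=
            hc_mono_right P _ fun ω ω' _ _ e => by
              simp only [hY, Prod.mk.injEq] at e ⊢
              exact ⟨e.1.1, e.2, e.1.2.2⟩
          linarith
        linarith
    exact key k hik fun j hj hj' => ⟨hA j hj hj', hν j hj hj', hs j hj hj'⟩
  linarith

/-- **heavy interval** `[i, i']` -/
theorem psi_rise {σ χ τ : Type*} (l : Ω → Λ) (T : ℕ → Ω → τT) (C : ℕ → Ω → κ) {i i' : ℕ}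
    (S : ℕ → Ω → σ) (X : ℕ → Ω → χ) (T' : ℕ → Ω → τ) (N : ℕ) {c0 cC : ℝ} {ν e : ℕ → ℝ}
    (hT : Fn P (T i) (T i')) (hCi : Fn P (C i) (fun ω => (l ω, T i ω)))
    (hCC : hc P (C i) (C i') ≤ cC)
    (h0 : hc P (C i) (S 0) ≤ c0)
    (h1 : ∀ w < N, hc P (S w) (S (w + 1)) ≤ ν w)
    (h2 : ∀ w < N, Fn P (fun ω => (T' w ω, X w ω)) (S (w + 1)))
    (he : ∀ w < N, hc (two P fun ω => (l ω, T i ω)) (fun p => X w p.fst)
      (fun p => (C i' p.snd, (T' w p.fst, S w p.fst))) ≤ e w) :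
    ∑ w ∈ range N, (hc P (X w) (fun ω => (T' w ω, S w ω)) - e w - ν w) - c0 - cC -
      hc P (T i') (fun ω => (l ω, T i ω)) ≤ psi P l T C i' - psi P l T C i := by
  rw [psi_sub P l T C hT]
  have h := rise_tot P (fun ω => (l ω, T i ω)) (C i) (C i') S X T' N hCi h0 h1 h2 he
  linarith

end

end Vale.Agent.P106.U.H833
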