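import Vale.Agent.P106.U.H833.Cap2

/-!
# P106 / U / H833 : windows over the cells, any letter `Θ` which determines the time (helper833)

Positions `A⁺ j = (A j b i', T j)`; `Θ` determines the time digits of the later step `i'`, nothing else is needed.

* `hc_pos` : the letter `T j` in the position costs nothing.
* `wnd_t` : `Wnd` (time version) from: chain `cha_t`, junction `ju_t`, N-steps for `Θ`.
* `SatT` : the N-step for an arbitrary letter; `win_t` : the psi-inequality of the window.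
-/

set_option autoImplicit false

namespace Vale.Agent.P106.U.H833

open Finset Vale.Agent.P127 Vale.Agent.P127.Stk
open Vale.Agent.P106.U.Cell

section

variable {Ω τ : Type} [Fintype Ω] (P : Law Ω) (C : Pth Ω τ) {Λ ζ θ : Type}

/-- time digits of the path -/
noncomputable def tdg (C : Pth Ω τ) (j : ℕ) (ω : Ω) : ℤ := fl1 (C.a j) (C.t ω)

/-- position with the letter -/
noncomputable def Ap (C : Pth Ω τ) (b i' j : ℕ) (ω : Ω) : (ℤ × ℤ × ℤ × ℤ × ℤ × ℤ × ℤ) × τ := (C.A j b i' ω, C.T j ω)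

/-- **N-step for an arbitrary letter** -/
def SatT (P : Law Ω) (C : Pth Ω τ) (b j i' : ℕ) (Θ : Ω → θ) (s : ℝ) : Prop :=
  s ≤ hc P (C.A (j + 1) b i') (fun ω => (C.A j b i' ω, (C.cell (j + 1) b ω, Θ ω)))

theorem T_fn {i j : ℕ} (h : i ≤ j) : Fn P (C.T i) (C.T j) := fun _ _ _ _ e => Pth.T_mono h e

theorem tdg_fn {i j : ℕ} (h : i ≤ j) : Fn P (tdg C i) (tdg C j) := by
  intro ω ω' _ _ e
  exact Vale.Agent.P127.U.CellD.fl1_fl1 (C.ha h) e

theorem tdg_T (j : ℕ) : Fn P (tdg C j) (C.T j) := by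
  intro ω ω' _ _ e
  show fl1 (C.a j) (C.t ω) = fl1 (C.a j) (C.t ω')
  rw [← C.htm j ω, ← C.htm j ω', e]

theorem T_cell (j b : ℕ) : Fn P (C.T j) (C.cell j b) := fun _ _ _ _ e => congrArg Prod.fst e

/-- the N-step in terms of the positions with letters -/
theorem SatT.pos {b j i' : ℕ} {Θ : Ω → θ} {s : ℝ} (h : SatT P C b j i' Θ s) :
    s ≤ hc P (Ap C b i' (j + 1)) (fun ω => (Ap C b i' j ω, (C.cell (j + 1) b ω, Θ ω))) := by
  refine h.trans ?_
  refine (hc_mono_right P (C.A (j + 1) b i') ?_).trans (hc_mono_left P ?_)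
  · intro ω ω' p p' e
    simp only [Ap, Prod.mk.injEq] at e ⊢
    exact ⟨⟨e.1, T_fn P C (Nat.le_succ j) ω ω' p p' (T_cell P C (j + 1) b ω ω' p p' e.2.1)⟩, e.2.1, e.2.2⟩
  · intro ω ω' _ _ e
    simp only [Ap, Prod.mk.injEq] at e
    exact e.1.1

/-- **window over the cells**, letter `Θ` which determines the time of the step `i'` -/
theorem wnd_t {n i k i' b : ℕ} (hki : k ≤ i') (l : Ω → Λ) (Z : ℕ → Ω → ζ) {Θ : Ω → θ}
    (hΘ : Fn P (tdg C i') Θ) {cA cJ : ℝ} {s : ℕ → ℝ}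
    (hcha : ∀ j, i ≤ j → j < k → hc P (C.A j b i') (fun ω => (C.A (j + 1) b i' ω, (C.T (j + 1) ω, tdg C i' ω))) ≤ cA)
    (hju : hc P (C.A k b i') (fun ω => (tdg C i' ω, C.cell k b ω)) ≤ cJ)
    (hs : ∀ j, i ≤ j → j < k → SatT P C b j i' Θ (s j)) :
    Wnd P n l Z (tdg C) (fun j => C.cell j b) i k (Ap C b i') Θ cA cJ s where
  hΘ := fun ω ω' p p' e => tdg_fn P C hki ω ω' p p' (hΘ ω ω' p p' e)
  hJ := by
    refine le_trans ?_ hju
    have h1 : hc P (Ap C b i' k) (fun ω => (Θ ω, C.cell k b ω)) ≤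
        hc P (C.A k b i') (fun ω => (Θ ω, C.cell k b ω)) := by
      have h2 : hc P (Ap C b i' k) (fun ω => (Θ ω, C.cell k b ω)) =
          hc P (C.A k b i') (fun ω => (Θ ω, C.cell k b ω)) :=
        hc_congr P
          (fun ω ω' p p' e => by
            simp only [Ap, Prod.mk.injEq] at e ⊢
            exact ⟨e.1, T_cell P C k b ω ω' p p' e.2.2⟩)
          (fun ω ω' _ _ e => by
            simp only [Ap, Prod.mk.injEq] at e
            exact e.1.1)
          (fun _ _ _ _ e => e) (fun _ _ _ _ e => e)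
      exact h2.le
    refine h1.trans (hc_mono_right P _ ?_)
    intro ω ω' p p' e
    simp only [Prod.mk.injEq] at e ⊢
    exact ⟨hΘ ω ω' p p' e.1, e.2⟩
  hA := by
    intro j h1 h2
    refine le_trans ?_ (hcha j h1 h2)
    have h3 : hc P (Ap C b i' j) (fun ω => (Ap C b i' (j + 1) ω, Θ ω)) =
        hc P (C.A j b i') (fun ω => (Ap C b i' (j + 1) ω, Θ ω)) :=
      hc_congr P
        (fun ω ω' p p' e => by
          simp only [Ap, Prod.mk.injEq] at e ⊢
          exact ⟨e.1, T_fn P C (Nat.le_succ j) ω ω' p p' e.2.1.2⟩)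
        (fun ω ω' _ _ e => by
          simp only [Ap, Prod.mk.injEq] at e
          exact e.1.1)
        (fun _ _ _ _ e => e) (fun _ _ _ _ e => e)
    rw [h3]
    refine hc_mono_right P _ ?_
    intro ω ω' p p' e
    simp only [Ap, Prod.mk.injEq] at e ⊢
    exact ⟨e.1.1, e.1.2, hΘ ω ω' p p' e.2⟩
  hs := fun j h1 h2 => (hs j h1 h2).pos

end

end Vale.Agent.P106.U.H833
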